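import Mathlib

namespace Vale.Agent.P314

theorem key_lemma {F L V M : Type*} [Field F] [Field L] [Algebra F L] [AddCommGroup V]
    [Module F V] [FiniteDimensional F V] [AddCommGroup M] [Module L M] [Module F M]
    [IsScalarTower F L M] {n : ℕ}
    (σ : L ≃+* L) (P : L) (hP : P ≠ 0) (w : Fin n → L) (Cst : Set L) (h0 : (0 : L) ∈ Cst)
    (hsum : ∀ (φ : L) (α : Fin n → L), (∀ i, α i ∈ Cst) → P * (φ - σ φ) = ∑ i, w i * α i →
      (∀ i, α i = 0) ∧ φ ∈ Cst)
    (D : Fin n → V →ₗ[F] V)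
    (hN : ∀ Q : V → Prop, Q 0 → (∀ a, (∀ i, Q (D i a)) → Q a) → ∀ a, Q a)
    (f : V) (hf : ∀ U : Submodule F V, f ∈ U → (∀ i, ∀ v ∈ U, D i v ∈ U) → U = ⊤)
    (ι : V →ₗ[F] M) (hι : Submodule.span L (Set.range ι) = ⊤)
    (τ : M →+ M) (hτ : ∀ (c : L) (m : M), τ (c • m) = σ c • τ m)
    (hτι : ∀ v, τ (ι v) = P • ι v - ∑ i, w i • ι (D i v))
    (R : Submodule L M) (hfR : ι f ∈ R) (hR : ∀ m ∈ R, τ m ∈ R) : R = ⊤ := by
  by_contra hne
  let S : Set (Submodule F V) :=
    {U | (∀ i, ∀ v ∈ U, D i v ∈ U) ∧ R ⊔ Submodule.span L (ι '' (U : Set V)) ≠ ⊤}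
  have hS : S.Nonempty := by
    refine ⟨⊥, ?_, ?_⟩
    · intro i v hv
      rw [Submodule.mem_bot] at hv
      simp [hv]
    · simpa using hne
  obtain ⟨U, ⟨hUc, hUt⟩, hmax⟩ := (wellFounded_gt (α := Submodule F V)).has_min S hS
  have hU : ∃ u, u ∉ U ∧ ∀ i, D i u ∈ U := by
    by_contra hcon
    push Not at hcon
    have hall : ∀ a, a ∈ U := by
      apply hN (fun a => a ∈ U) U.zero_mem
      intro a ha
      by_contra hna
      obtain ⟨i, hi⟩ := hcon a hna
      exact hi (ha i)
    apply hUt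
    have : ι '' (U : Set V) = Set.range ι := by
      ext x; simp [hall]
    rw [this, hι]; simp
  obtain ⟨u, huU, hDu⟩ := hU
  have htop : R ⊔ Submodule.span L (ι '' ((U ⊔ Submodule.span F {u} : Submodule F V) : Set V))
      = ⊤ := by
    by_contra hcon
    refine hmax (U ⊔ Submodule.span F {u}) ⟨?_, hcon⟩ ?_
    · intro i v hv
      obtain ⟨x, hx, y, hy, rfl⟩ := Submodule.mem_sup.1 hv
      obtain ⟨c, rfl⟩ := Submodule.mem_span_singleton.1 hy
      rw [map_add, map_smul]
      exact Submodule.mem_sup_left (U.add_mem (hUc i x hx) (U.smul_mem _ (hDu i)))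
    · refine lt_of_le_of_ne le_sup_left fun h => huU ?_
      rw [h]
      exact Submodule.mem_sup_right (Submodule.mem_span_singleton_self u)
  have vanish : ∀ ψ : M →ₗ[L] L, (∀ m ∈ R, ψ m = 0) → (∀ v ∈ U, ψ (ι v) = 0) → ψ (ι u) = 0 →
      ψ = 0 := by
    intro ψ h1 h2 h3
    rw [← LinearMap.ker_eq_top, eq_top_iff, ← htop]
    refine sup_le (fun m hm => h1 m hm) (Submodule.span_le.2 ?_)
    rintro _ ⟨v, hv, rfl⟩
    obtain ⟨x, hx, y, hy, rfl⟩ := Submodule.mem_sup.1 hv
    obtain ⟨c, rfl⟩ := Submodule.mem_span_singleton.1 hy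
    simp only [SetLike.mem_coe, LinearMap.mem_ker, map_add, map_smul]
    rw [h2 x hx, ← algebraMap_smul L c (ι u), map_smul, h3]; simp
  obtain ⟨ψ0, hψ0, hker⟩ := Submodule.exists_le_ker_of_lt_top _ (lt_top_iff_ne_top.2 hUt)
  have hψ0R : ∀ m ∈ R, ψ0 m = 0 := fun m hm => hker (Submodule.mem_sup_left hm)
  have hψ0U : ∀ v ∈ U, ψ0 (ι v) = 0 := fun v hv =>
    hker (Submodule.mem_sup_right (Submodule.subset_span ⟨v, hv, rfl⟩))
  have hψ0u : ψ0 (ι u) ≠ 0 := fun h => hψ0 (vanish ψ0 hψ0R hψ0U h)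
  let ψ : M →ₗ[L] L := (ψ0 (ι u))⁻¹ • ψ0
  have hψR : ∀ m ∈ R, ψ m = 0 := fun m hm => by simp [ψ, hψ0R m hm]
  have hψU : ∀ v ∈ U, ψ (ι v) = 0 := fun v hv => by simp [ψ, hψ0U v hv]
  have hψu : ψ (ι u) = 1 := by simp [ψ, hψ0u]
  let ψ' : M →ₗ[L] L :=
    { toFun := fun m => σ.symm (ψ (τ m) / P)
      map_add' := fun a b => by rw [map_add, map_add, add_div, map_add]
      map_smul' := fun c m => by
        rw [hτ, map_smul, smul_eq_mul, mul_div_assoc, map_mul, RingEquiv.symm_apply_apply]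
        rfl }
  have hψ' : ∀ m, ψ' m = σ.symm (ψ (τ m) / P) := fun m => rfl
  have hτψ : ∀ v, ψ (τ (ι v)) = P * ψ (ι v) - ∑ i, w i * ψ (ι (D i v)) := by
    intro v
    rw [hτι, map_sub, map_smul, map_sum]
    simp only [map_smul, smul_eq_mul]
  have heq : ψ' - ψ = 0 := by
    apply vanish
    · intro m hm
      rw [LinearMap.sub_apply, hψ', hψR m hm, hψR _ (hR m hm)]; simp
    · intro v hv
      rw [LinearMap.sub_apply, hψ', hτψ, hψU v hv]
      simp [fun i => hψU _ (hUc i v hv)]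
    · rw [LinearMap.sub_apply, hψ', hτψ, hψu]
      simp [fun i => hψU _ (hDu i), hP]
  have hrel : ∀ v, P * (ψ (ι v) - σ (ψ (ι v))) = ∑ i, w i * ψ (ι (D i v)) := by
    intro v
    have h1 : ψ' (ι v) = ψ (ι v) := by
      have := LinearMap.congr_fun heq (ι v)
      rwa [LinearMap.sub_apply, LinearMap.zero_apply, sub_eq_zero] at this
    rw [hψ', RingEquiv.symm_apply_eq, hτψ, div_eq_iff hP] at h1
    linear_combination h1
  have hC : ∀ v, ψ (ι v) ∈ Cst := by
    apply hN (fun v => ψ (ι v) ∈ Cst)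
    · simpa using h0
    · intro a ha
      exact (hsum _ _ ha (hrel a)).2
  have hD : ∀ v i, ψ (ι (D i v)) = 0 := fun v => (hsum _ _ (fun i => hC _) (hrel v)).1
  have hall := hf (LinearMap.ker ((ψ.restrictScalars F) ∘ₗ ι)) (by simpa using hψR _ hfR)
    (fun i v _ => by simpa using hD v i)
  have : u ∈ LinearMap.ker ((ψ.restrictScalars F) ∘ₗ ι) := by rw [hall]; trivial
  simp [hψu] at this

theorem krylov {L M : Type*} [Field L] [AddCommGroup M] [Module L M] [FiniteDimensional L M]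
    (σ : L → L) (τ : M →+ M) (hτ : ∀ (c : L) (m : M), τ (c • m) = σ c • τ m)
    (p : ℕ → M) (hp : ∀ k, p (k + 1) = τ (p k))
    (h : ∀ R : Submodule L M, p 0 ∈ R → (∀ m ∈ R, τ m ∈ R) → R = ⊤)
    (r : ℕ) (hr : Module.finrank L M = r) (hr0 : 0 < r) :
    Submodule.span L (Set.range fun k : Fin r => p k) = ⊤ := by
  let Rk : ℕ → Submodule L M := fun k => Submodule.span L (p '' Set.Iic k)
  have main : ∀ k, Rk k = ⊤ ∨ k + 1 ≤ Module.finrank L (Rk k) := by
    have stab : ∀ k, p (k + 1) ∈ Rk k → Rk k = ⊤ := by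
      intro k hk
      apply h
      · exact Submodule.subset_span ⟨0, by simp, rfl⟩
      · intro m hm
        induction hm using Submodule.span_induction with
        | mem x hx =>
          obtain ⟨j, hj, rfl⟩ := hx
          rw [← hp]
          rcases (Set.mem_Iic.1 hj).lt_or_eq with hj | rfl
          · exact Submodule.subset_span ⟨j + 1, hj, rfl⟩
          · exact hk
        | zero => simp
        | add x y _ _ hx hy => rw [map_add]; exact add_mem hx hy
        | smul c x _ hx => rw [hτ]; exact Submodule.smul_mem _ _ hx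
    intro k
    induction k with
    | zero =>
      by_cases h0 : Rk 0 = ⊥
      · left
        apply stab
        have : p 0 ∈ Rk 0 := Submodule.subset_span ⟨0, by simp, rfl⟩
        rw [h0, Submodule.mem_bot] at this
        rw [hp, this]; simp
      · right
        have := Submodule.finrank_lt_finrank_of_lt (bot_lt_iff_ne_bot.2 h0)
        omega
    | succ k ih =>
      have hle : Rk k ≤ Rk (k + 1) :=
        Submodule.span_mono (Set.image_mono (Set.Iic_subset_Iic.2 (by omega)))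
      rcases ih with ih | ih
      · left; rw [eq_top_iff, ← ih]; exact hle
      · by_cases hk : p (k + 1) ∈ Rk k
        · left; rw [eq_top_iff, ← stab k hk]; exact hle
        · right
          have hlt : Rk k < Rk (k + 1) := by
            refine lt_of_le_of_ne hle fun he => hk ?_
            rw [he]
            exact Submodule.subset_span ⟨k + 1, by simp, rfl⟩
          have := Submodule.finrank_lt_finrank_of_lt hlt
          omega
  have hrange : (Set.range fun k : Fin r => p k) = p '' Set.Iic (r - 1) := by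
    ext x
    constructor
    · rintro ⟨k, rfl⟩
      exact ⟨k, by have := k.2; simp; omega, rfl⟩
    · rintro ⟨k, hk, rfl⟩
      exact ⟨⟨k, by simp at hk; omega⟩, rfl⟩
  rw [hrange]
  rcases main (r - 1) with h1 | h1
  · exact h1
  · apply Submodule.eq_top_of_finrank_eq
    have := Submodule.finrank_le (Rk (r - 1))
    change Module.finrank L (Rk (r - 1)) = _
    omega

end Vale.Agent.P314
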