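import Vale.Agent.P314.Summable
import Vale.Agent.P314.Krylov

namespace Vale.Agent.P314

open Polynomial

variable {F : Type*} [Field F] {n r : ℕ}

/-- The coordinates of the iterated `q`-shifts, with denominators cleared. The inner variable is
`q` and the outer one is `z`. -/
noncomputable def pseq (D : Fin n → Matrix (Fin r) (Fin r) F) (c : Fin r → F) :
    ℕ → Fin r → F[X][X]
  | 0 => fun j => C (C (c j))
  | k + 1 => fun l => (1 - X ^ n) * sc X (pseq D c k l) -
      ∑ i : Fin n, X ^ (i.1 + 1) * ∑ j, C (C (D i l j)) * sc X (pseq D c k j)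

/-- bidegree bound -/
def Bdd (a b : ℕ) (p : F[X][X]) : Prop := p.natDegree ≤ a ∧ ∀ m, (p.coeff m).natDegree ≤ b

theorem Bdd.mono {a b a' b' : ℕ} {p : F[X][X]} (h : Bdd a b p) (ha : a ≤ a') (hb : b ≤ b') :
    Bdd a' b' p := ⟨h.1.trans ha, fun m => (h.2 m).trans hb⟩

theorem Bdd.zero (a b : ℕ) : Bdd a b (0 : F[X][X]) := ⟨by simp, by simp⟩

theorem Bdd.add {a b : ℕ} {p p' : F[X][X]} (h : Bdd a b p) (h' : Bdd a b p') :
    Bdd a b (p + p') :=
  ⟨natDegree_add_le_of_degree_le h.1 h'.1, fun m => by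
    rw [coeff_add]; exact natDegree_add_le_of_degree_le (h.2 m) (h'.2 m)⟩

theorem Bdd.neg {a b : ℕ} {p : F[X][X]} (h : Bdd a b p) : Bdd a b (-p) :=
  ⟨by simpa using h.1, fun m => by simpa using h.2 m⟩

theorem Bdd.sub {a b : ℕ} {p p' : F[X][X]} (h : Bdd a b p) (h' : Bdd a b p') :
    Bdd a b (p - p') := by
  rw [sub_eq_add_neg]; exact h.add h'.neg

theorem Bdd.sum {ι : Type*} {a b : ℕ} (s : Finset ι) (p : ι → F[X][X])
    (h : ∀ i ∈ s, Bdd a b (p i)) : Bdd a b (∑ i ∈ s, p i) :=
  Finset.sum_induction _ _ (fun _ _ => Bdd.add) (Bdd.zero a b) h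

theorem Bdd.mul {a b a' b' : ℕ} {p p' : F[X][X]} (h : Bdd a b p) (h' : Bdd a' b' p') :
    Bdd (a + a') (b + b') (p * p') :=
  ⟨natDegree_mul_le.trans (add_le_add h.1 h'.1), fun m => by
    rw [coeff_mul]
    apply natDegree_sum_le_of_forall_le
    intro x _
    exact natDegree_mul_le.trans (add_le_add (h.2 _) (h'.2 _))⟩

theorem Bdd.CC (d : F) : Bdd 0 0 (C (C d) : F[X][X]) :=
  ⟨by simp, fun m => by rw [coeff_C]; split_ifs <;> simp⟩

theorem Bdd.one : Bdd 0 0 (1 : F[X][X]) := by simpa using Bdd.CC (1 : F)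

theorem Bdd.Xpow (e : ℕ) : Bdd e 0 (X ^ e : F[X][X]) :=
  ⟨natDegree_X_pow_le e, fun m => by rw [coeff_X_pow]; split_ifs <;> simp⟩

theorem Bdd.prod {ι : Type*} {a b : ℕ} (s : Finset ι) (p : ι → F[X][X])
    (h : ∀ i ∈ s, Bdd a b (p i)) : Bdd (s.card * a) (s.card * b) (∏ i ∈ s, p i) := by
  classical
  induction s using Finset.induction_on with
  | empty => simpa using Bdd.one
  | insert x s hx ih =>
    rw [Finset.prod_insert hx, Finset.card_insert_of_notMem hx]
    have := (h x (by simp)).mul (ih fun i hi => h i (by simp [hi]))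
    exact this.mono (by ring_nf; rfl) (by ring_nf; rfl)

theorem Bdd.sc {a b : ℕ} {p : F[X][X]} (h : Bdd a b p) : Bdd a (a + b) (sc X p) := by
  refine ⟨?_, fun m => ?_⟩
  · rw [natDegree_le_iff_coeff_eq_zero]
    intro N hN
    rw [sc_coeff, coeff_eq_zero_of_natDegree_lt (h.1.trans_lt hN), zero_mul]
  · rw [sc_coeff]
    by_cases hm : m ≤ a
    · refine natDegree_mul_le.trans ?_
      have := h.2 m
      have h2 : (X ^ m : F[X]).natDegree ≤ m := natDegree_X_pow_le m
      omega
    · rw [coeff_eq_zero_of_natDegree_lt (h.1.trans_lt (by omega)), zero_mul]; simp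

theorem Bdd.det {a b : ℕ} (A : Matrix (Fin r) (Fin r) F[X][X]) (h : ∀ i j, Bdd a b (A i j)) :
    Bdd (r * a) (r * b) A.det := by
  rw [Matrix.det_apply]
  apply Bdd.sum
  intro σ _
  have := Bdd.prod Finset.univ (fun i => A (σ i) i) (fun i _ => h _ _)
  rw [Finset.card_univ, Fintype.card_fin] at this
  rcases Int.units_eq_one_or (Equiv.Perm.sign σ) with hs | hs
  · rw [hs, one_smul]; exact this
  · rw [hs, Units.neg_smul, one_smul]; exact this.neg

theorem pseq_bdd (D : Fin n → Matrix (Fin r) (Fin r) F) (c : Fin r → F) (k : ℕ) (l : Fin r) :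
    Bdd (n * k) (n * k ^ 2) (pseq D c k l) := by
  induction k generalizing l with
  | zero => simpa [pseq] using Bdd.CC (c l)
  | succ k ih =>
    have hb : n * k + n * k ^ 2 ≤ n * (k + 1) ^ 2 := by nlinarith [Nat.zero_le (n * k)]
    simp only [pseq]
    apply Bdd.sub
    · have h1 : Bdd n 0 (1 - X ^ n : F[X][X]) :=
        (Bdd.one.mono (Nat.zero_le _) le_rfl).sub (Bdd.Xpow n)
      exact (h1.mul (ih l).sc).mono (by ring_nf; rfl) (by omega)
    · apply Bdd.sum
      intro i _
      have h1 : Bdd n 0 (X ^ (i.1 + 1) : F[X][X]) := (Bdd.Xpow _).mono i.2 le_rfl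
      have h2 : Bdd (n * k) (n * k + n * k ^ 2)
          (∑ j, C (C (D i l j)) * sc X (pseq D c k j) : F[X][X]) := by
        apply Bdd.sum
        intro j _
        exact ((Bdd.CC _).mul (ih j).sc).mono (by omega) (by omega)
      exact (h1.mul h2).mono (by ring_nf; rfl) (by omega)

theorem det_pseq_bdd (D : Fin n → Matrix (Fin r) (Fin r) F) (c : Fin r → F) :
    Bdd (n * r ^ 2) (n * r ^ 3) (Matrix.of fun (k l : Fin r) => pseq D c k l).det := by
  have := Bdd.det (a := n * r) (b := n * r ^ 2) (Matrix.of fun (k l : Fin r) => pseq D c k l)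
    (fun k l => (pseq_bdd D c k l).mono (Nat.mul_le_mul_left _ k.2.le)
      (Nat.mul_le_mul_left _ (Nat.pow_le_pow_left k.2.le 2)))
  exact this.mono (by ring_nf; rfl) (by ring_nf; rfl)

theorem det_ne_zero_aux {L V : Type*} [Field L] [Algebra F L] [AddCommGroup V] [Module F V]
    (h : F[X][X] →+* L) (hinj : Function.Injective h)
    (hC : ∀ a, h (C (C a)) = algebraMap F L a) (σ : L ≃+* L) (hσ : ∀ p, σ (h p) = h (sc X p))
    (hn : 0 < n) (Cst : Set L) (h0 : (0 : L) ∈ Cst)
    (hsum : ∀ (φ : L) (α : Fin n → L), (∀ i, α i ∈ Cst) →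
      h (1 - X ^ n) * (φ - σ φ) = ∑ i, h (X ^ (i.1 + 1)) * α i → (∀ i, α i = 0) ∧ φ ∈ Cst)
    (D : Fin n → V →ₗ[F] V)
    (hN : ∀ Q : V → Prop, Q 0 → (∀ a, (∀ i, Q (D i a)) → Q a) → ∀ a, Q a)
    (f : V) (hf : ∀ U : Submodule F V, f ∈ U → (∀ i, ∀ v ∈ U, D i v ∈ U) → U = ⊤)
    (bs : Module.Basis (Fin r) F V) (hr : 0 < r) :
    (Matrix.of fun (k l : Fin r) =>
      pseq (fun i => LinearMap.toMatrix bs bs (D i)) (bs.repr f) k l).det ≠ 0 := by
  classical
  have : FiniteDimensional F V := Module.Finite.of_basis bs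
  have hP : h (1 - X ^ n) ≠ 0 := by
    rw [Ne, map_eq_zero_iff _ hinj]
    intro h1
    have := congrArg (fun p => coeff p 0) h1
    simp [coeff_X_pow, hn.ne] at this
  have hσa : ∀ a : F, σ (algebraMap F L a) = algebraMap F L a := by
    intro a; rw [← hC, hσ, sc_C]
  let ι : V →ₗ[F] (Fin r → L) :=
    { toFun := fun v j => algebraMap F L (bs.repr v j)
      map_add' := fun a b => by ext j; simp
      map_smul' := fun c v => by ext j; simp [Algebra.smul_def] }
  have hι : ∀ v j, ι v j = algebraMap F L (bs.repr v j) := fun _ _ => rfl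
  let τ : (Fin r → L) →+ (Fin r → L) :=
    { toFun := fun y l => h (1 - X ^ n) * σ (y l) - ∑ i : Fin n, h (X ^ (i.1 + 1)) *
        ∑ j, algebraMap F L (LinearMap.toMatrix bs bs (D i) l j) * σ (y j)
      map_zero' := by ext l; simp
      map_add' := fun a b => by
        ext l
        simp only [Pi.add_apply, map_add, mul_add, Finset.sum_add_distrib]
        ring }
  have hτ0 : ∀ y l, τ y l = h (1 - X ^ n) * σ (y l) - ∑ i : Fin n, h (X ^ (i.1 + 1)) *
        ∑ j, algebraMap F L (LinearMap.toMatrix bs bs (D i) l j) * σ (y j) := fun _ _ => rfl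
  have hτ : ∀ (c : L) (m : Fin r → L), τ (c • m) = σ c • τ m := by
    intro c m
    ext l
    simp only [hτ0, Pi.smul_apply, smul_eq_mul, map_mul, mul_sub, Finset.mul_sum]
    congr 1
    · ring
    · refine Finset.sum_congr rfl fun i _ => Finset.sum_congr rfl fun j _ => ?_
      ring
  have hτι : ∀ v, τ (ι v) = h (1 - X ^ n) • ι v - ∑ i, h (X ^ (i.1 + 1)) • ι (D i v) := by
    intro v
    ext l
    simp only [hτ0, hι, hσa, Pi.sub_apply, Pi.smul_apply, smul_eq_mul, Finset.sum_apply]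
    congr 1
    refine Finset.sum_congr rfl fun i _ => ?_
    congr 1
    have := congrFun (LinearMap.toMatrix_mulVec_repr bs bs (D i) v) l
    rw [← this]
    simp [Matrix.mulVec, dotProduct]
  have hιtop : Submodule.span L (Set.range ι) = ⊤ := by
    rw [eq_top_iff, ← (Pi.basisFun L (Fin r)).span_eq]
    apply Submodule.span_mono
    rintro _ ⟨j, rfl⟩
    refine ⟨bs j, ?_⟩
    ext l
    simp [hι, Finsupp.single_apply, Pi.single_apply, eq_comm]
  let p : ℕ → Fin r → L := fun k l =>
    h (pseq (fun i => LinearMap.toMatrix bs bs (D i)) (bs.repr f) k l)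
  have hp : ∀ k, p (k + 1) = τ (p k) := by
    intro k
    ext l
    simp only [p, pseq, hτ0, map_sub, map_mul, map_sum, hσ, hC]
  have hp0 : p 0 = ι f := by
    ext l
    simp only [p, pseq, hι, hC]
  have hspan := krylov σ τ hτ p hp (fun R h1 h2 =>
    key_lemma σ _ hP _ Cst h0 hsum D hN f hf ι hιtop τ hτ hτι R (hp0 ▸ h1) h2) r (by simp) hr
  have hli := linearIndependent_of_top_le_span_of_card_eq_finrank hspan.ge (by simp)
  have hu : IsUnit (Matrix.of fun (k l : Fin r) => p k l) :=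
    Matrix.linearIndependent_rows_iff_isUnit.1 hli
  rw [Matrix.isUnit_iff_isUnit_det] at hu
  intro hdet
  have := congrArg h hdet
  rw [RingHom.map_det, map_zero] at this
  exact hu.ne_zero this

theorem det_ne_zero {V : Type*} [AddCommGroup V] [Module F V] (hn : 0 < n)
    (D : Fin n → V →ₗ[F] V)
    (hN : ∀ Q : V → Prop, Q 0 → (∀ a, (∀ i, Q (D i a)) → Q a) → ∀ a, Q a)
    (f : V) (hf : ∀ U : Submodule F V, f ∈ U → (∀ i, ∀ v ∈ U, D i v ∈ U) → U = ⊤)
    (bs : Module.Basis (Fin r) F V) (hr : 0 < r) :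
    (Matrix.of fun (k l : Fin r) =>
      pseq (fun i => LinearMap.toMatrix bs bs (D i)) (bs.repr f) k l).det ≠ 0 := by
  let K := AlgebraicClosure (RatFunc F)
  let g : F[X] →+* K := (algebraMap (RatFunc F) K).comp (algebraMap F[X] (RatFunc F))
  have hg : Function.Injective g :=
    (algebraMap (RatFunc F) K).injective.comp (IsFractionRing.injective F[X] (RatFunc F))
  have hq : ∀ i j : ℕ, g X ^ i = g X ^ j → i = j := by
    intro i j hij
    rw [← map_pow, ← map_pow] at hij
    have := congrArg natDegree (hg hij)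
    simpa using this
  have hq0 : g X ≠ 0 := by
    intro h
    have := hq 1 2 (by simp [h])
    omega
  let h : F[X][X] →+* RatFunc K := (algebraMap K[X] (RatFunc K)).comp (mapRingHom g)
  have hh : ∀ p, h p = algebraMap K[X] (RatFunc K) (p.map g) := fun _ => rfl
  have hinj : Function.Injective h :=
    (IsFractionRing.injective K[X] (RatFunc K)).comp (map_injective g hg)
  refine @det_ne_zero_aux F _ n r (RatFunc K) V _ (h.comp (C.comp C)).toAlgebra _ _ h hinj
    (fun a => rfl) (scL hq0) ?_ hn (Set.range fun c : K => algebraMap K[X] (RatFunc K) (C c))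
    ⟨0, by simp⟩ ?_ D hN f hf bs hr
  · intro p
    rw [hh, hh, scL_algebraMap]
    congr 1
    ext m
    simp [sc_coeff]
  · intro φ α hα hrel
    choose β hβ using hα
    have := rat_nonsummable hq hq0 hn φ β (by
      rw [hh] at hrel
      simp only [Polynomial.map_sub, Polynomial.map_one, Polynomial.map_pow, map_X] at hrel
      rw [hrel]
      refine Finset.sum_congr rfl fun i _ => ?_
      rw [hh, ← hβ i, map_mul, mul_comm]
      simp)
    refine ⟨fun i => ?_, ?_⟩
    · rw [← hβ i, this.1 i]; simp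
    · obtain ⟨c, hc⟩ := this.2
      exact ⟨c, hc.symm⟩

end Vale.Agent.P314
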