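import Mathlib

namespace Vale.Agent.P314

open Computability

universe u

/-- Noncommutative division-free formulas (trees) over `F` in the variables `x_0, ..., x_{n-1}`. -/
inductive Formula (F : Type u) (n : ℕ) : Type u
  | var : Fin n → Formula F n
  | const : F → Formula F n
  | add : Formula F n → Formula F n → Formula F n
  | mul : Formula F n → Formula F n → Formula F n

/-- Size: the total number of vertices, leaves included. -/
def Formula.size {F : Type u} {n : ℕ} : Formula F n → ℕ
  | .var _ => 1
  | .const _ => 1
  | .add a b => a.size + b.size + 1
  | .mul a b => a.size + b.size + 1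

/-- The element of the free associative algebra computed by a formula. -/
noncomputable def Formula.poly {F : Type u} [Field F] {n : ℕ} :
    Formula F n → FreeAlgebra F (Fin n)
  | .var i => FreeAlgebra.ι F i
  | .const c => algebraMap F (FreeAlgebra F (Fin n)) c
  | .add a b => a.poly + b.poly
  | .mul a b => a.poly * b.poly

/-- An `n`-tuple of square matrices over `F` of a common dimension `d`. -/
structure Point (F : Type u) (n : ℕ) : Type u where
  d : ℕ
  T : Fin n → Matrix (Fin d) (Fin d) F

/-- `H` is a hitting set for the polynomials computed by formulas of size at most `s`. -/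
def IsHittingSet {F : Type u} [Field F] (n s : ℕ) (H : List (Point F n)) : Prop :=
  ∀ φ : Formula F n, φ.size ≤ s → φ.poly ≠ 0 →
    ∃ P ∈ H, FreeAlgebra.lift F P.T φ.poly ≠ 0

/-- The tuple over `F` whose entries are `1` or `0` according to a tuple of Boolean matrices. -/
def ofBool (F : Type u) [Field F] {n k : ℕ} (B : Fin n → Matrix (Fin k) (Fin k) Bool) :
    Point F n :=
  ⟨k, fun i r c => if B i r c then 1 else 0⟩

/-- Input word: `n` and `s`, both in binary or both in unary, separated by a comma. -/
def encIn (binary : Bool) (n s : ℕ) : List Γ' :=
  (if binary then encodeNat n else unaryEncodeNat n).map Γ'.bit ++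
    Γ'.comma :: (if binary then encodeNat s else unaryEncodeNat s).map Γ'.bit

/-- A list is written as `[ a_1 , a_2 , ... , a_k , ]`. -/
def encList {α : Type u} (e : α → List Γ') (l : List α) : List Γ' :=
  Γ'.bra :: (l.flatMap fun a => e a ++ [Γ'.comma]) ++ [Γ'.ket]

/-- A tuple is written as its dimension in unary (blanks), followed by the list of its matrices,
each the list of its rows, each the list of the binary codes of its entries. -/
def encPoint {F : Type u} (e : Encoding F Bool) {n : ℕ} (P : Point F n) : List Γ' :=
  List.replicate P.d Γ'.blank ++
    encList (fun i => encList (fun r => encList (fun c => (e.encode (P.T i r c)).map Γ'.bit)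
      (List.finRange P.d)) (List.finRange P.d)) (List.finRange n)

end Vale.Agent.P314
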