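import Vale.Agent.P314.Defs

namespace Vale.Agent.P314

open FreeAlgebra

universe u

variable {F : Type u} [Field F] {n : ℕ}

theorem left_induction {M : Submodule F (FreeAlgebra F (Fin n))} (h1 : 1 ∈ M)
    (hx : ∀ i, ∀ w ∈ M, ι F i * w ∈ M) (a : FreeAlgebra F (Fin n)) : a ∈ M := by
  have key : ∀ a : FreeAlgebra F (Fin n), ∀ w ∈ M, a * w ∈ M := by
    intro a
    induction a using FreeAlgebra.induction with
    | grade0 r => intro w hw; rw [← Algebra.smul_def]; exact M.smul_mem r hw
    | grade1 i => exact hx i
    | mul a b ha hb => intro w hw; rw [mul_assoc]; exact ha _ (hb _ hw)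
    | add a b ha hb => intro w hw; rw [add_mul]; exact M.add_mem (ha _ hw) (hb _ hw)
  simpa using key a 1 h1

noncomputable def recon :
    (F × (Fin n → FreeAlgebra F (Fin n))) →ₗ[F] FreeAlgebra F (Fin n) where
  toFun x := algebraMap F _ x.1 + ∑ i, ι F i * x.2 i
  map_add' x y := by
    simp only [Prod.fst_add, Prod.snd_add, map_add, Pi.add_apply, mul_add, Finset.sum_add_distrib]
    abel
  map_smul' c x := by
    simp only [Prod.smul_fst, Prod.smul_snd, Pi.smul_apply, smul_eq_mul, map_mul, RingHom.id_apply,
      smul_add, Finset.smul_sum, mul_smul_comm]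
    rw [Algebra.smul_def]

noncomputable def act (j : Fin n) : Module.End F (F × (Fin n → FreeAlgebra F (Fin n))) :=
  (LinearMap.inr F F _) ∘ₗ (LinearMap.single F (fun _ => FreeAlgebra F (Fin n)) j) ∘ₗ recon

noncomputable def theta :
    FreeAlgebra F (Fin n) →ₗ[F] (F × (Fin n → FreeAlgebra F (Fin n))) where
  toFun a := FreeAlgebra.lift F act a (1, 0)
  map_add' x y := by simp
  map_smul' c x := by simp

theorem theta_one : theta (1 : FreeAlgebra F (Fin n)) = (1, 0) := by
  simp [theta]

theorem theta_mul (j : Fin n) (w : FreeAlgebra F (Fin n)) :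
    theta (ι F j * w) = (0, Pi.single j (recon (theta w))) := by
  simp [theta, act]

theorem recon_theta (w : FreeAlgebra F (Fin n)) : recon (theta w) = w := by
  have : w ∈ LinearMap.eqLocus (recon ∘ₗ theta) (LinearMap.id (R := F)) := by
    apply left_induction
    · simp [LinearMap.mem_eqLocus, theta_one, recon]
    · intro i w hw
      rw [LinearMap.mem_eqLocus] at hw ⊢
      simp only [LinearMap.comp_apply, LinearMap.id_apply] at hw ⊢
      rw [theta_mul, hw]
      simp only [recon, LinearMap.coe_mk, AddHom.coe_mk, map_zero, zero_add]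
      rw [Finset.sum_eq_single i]
      · simp
      · intro b _ hb; simp [Pi.single_eq_of_ne hb]
      · simp
  simpa [LinearMap.mem_eqLocus] using this

/-- left quotient by the variable `x_i` -/
noncomputable def dq (i : Fin n) : FreeAlgebra F (Fin n) →ₗ[F] FreeAlgebra F (Fin n) :=
  (LinearMap.proj i) ∘ₗ (LinearMap.snd F F _) ∘ₗ theta

/-- constant term -/
noncomputable def eps : FreeAlgebra F (Fin n) →ₗ[F] F := (LinearMap.fst F F _) ∘ₗ theta

theorem dq_one (i : Fin n) : dq i (1 : FreeAlgebra F (Fin n)) = 0 := by
  simp [dq, theta_one]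

theorem eps_one : eps (1 : FreeAlgebra F (Fin n)) = 1 := by
  simp [eps, theta_one]

theorem dq_mul_gen (i j : Fin n) (w : FreeAlgebra F (Fin n)) :
    dq i (ι F j * w) = if i = j then w else 0 := by
  simp only [dq, LinearMap.comp_apply, theta_mul, recon_theta, LinearMap.snd_apply,
    LinearMap.proj_apply]
  split_ifs with h
  · subst h; simp
  · simp [Pi.single_eq_of_ne h]

theorem decomp (w : FreeAlgebra F (Fin n)) :
    w = algebraMap F _ (eps w) + ∑ i, ι F i * dq i w := by
  conv_lhs => rw [← recon_theta w]
  rfl

theorem dq_mul (i : Fin n) (v w : FreeAlgebra F (Fin n)) :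
    dq i (v * w) = dq i v * w + eps v • dq i w := by
  conv_lhs => rw [decomp v]
  rw [add_mul, Finset.sum_mul, map_add, map_sum, ← Algebra.smul_def, map_smul, add_comm]
  congr 1
  simp only [mul_assoc, dq_mul_gen]
  simp

/-- closed under left quotients -/
def QClosed (U : Submodule F (FreeAlgebra F (Fin n))) : Prop := ∀ i, ∀ v ∈ U, dq i v ∈ U

theorem exists_closed (φ : Formula F n) :
    ∃ U : Submodule F (FreeAlgebra F (Fin n)), QClosed U ∧ φ.poly ∈ U ∧
      FiniteDimensional F U ∧ Module.finrank F U ≤ φ.size + 1 := by
  classical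
  induction φ with
  | var j =>
    refine ⟨Submodule.span F (({1, ι F j} : Finset (FreeAlgebra F (Fin n))) : Set _), ?_, ?_,
      inferInstance, ?_⟩
    · intro i v hv
      have : Submodule.span F (({1, ι F j} : Finset (FreeAlgebra F (Fin n))) : Set _) ≤
          (Submodule.span F (({1, ι F j} : Finset (FreeAlgebra F (Fin n))) : Set _)).comap
            (dq i) := by
        rw [Submodule.span_le]
        intro x hx
        simp only [Finset.coe_insert, Finset.coe_singleton, Set.mem_insert_iff,
          Set.mem_singleton_iff] at hx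
        rcases hx with rfl | rfl
        · simp [dq_one]
        · have h := dq_mul_gen (F := F) i j 1
          rw [mul_one] at h
          simp only [SetLike.mem_coe, Submodule.mem_comap, h]
          split_ifs
          · exact Submodule.subset_span (by simp)
          · simp
      exact this hv
    · exact Submodule.subset_span (by simp [Formula.poly])
    · refine (finrank_span_finset_le_card _).trans ?_
      exact Finset.card_le_two
  | const c =>
    refine ⟨Submodule.span F (({1} : Finset (FreeAlgebra F (Fin n))) : Set _), ?_, ?_,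
      inferInstance, ?_⟩
    · intro i v hv
      simp only [Finset.coe_singleton, Submodule.mem_span_singleton] at hv
      obtain ⟨a, rfl⟩ := hv
      simp [dq_one]
    · simp only [Finset.coe_singleton, Submodule.mem_span_singleton, Formula.poly]
      exact ⟨c, by rw [Algebra.smul_def, mul_one]⟩
    · refine (finrank_span_finset_le_card _).trans ?_
      simp
  | add a b ha hb =>
    obtain ⟨U, hU, haU, hUf, hUr⟩ := ha
    obtain ⟨V, hV, hbV, hVf, hVr⟩ := hb
    refine ⟨U ⊔ V, ?_, ?_, inferInstance, ?_⟩
    · intro i v hv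
      obtain ⟨x, hx, y, hy, rfl⟩ := Submodule.mem_sup.1 hv
      rw [map_add]
      exact Submodule.add_mem_sup (hU i x hx) (hV i y hy)
    · exact Submodule.add_mem_sup haU hbV
    · have := Submodule.finrank_add_le_finrank_add_finrank U V
      simp only [Formula.size]; omega
  | mul a b ha hb =>
    obtain ⟨U, hU, haU, hUf, hUr⟩ := ha
    obtain ⟨V, hV, hbV, hVf, hVr⟩ := hb
    refine ⟨U.map (LinearMap.mulRight F b.poly) ⊔ V, ?_, ?_, inferInstance, ?_⟩
    · intro i v hv
      obtain ⟨x, hx, y, hy, rfl⟩ := Submodule.mem_sup.1 hv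
      obtain ⟨x', hx', rfl⟩ := Submodule.mem_map.1 hx
      rw [map_add, LinearMap.mulRight_apply, dq_mul, add_assoc]
      refine Submodule.add_mem_sup ⟨_, hU i x' hx', rfl⟩ ?_
      exact V.add_mem (V.smul_mem _ (hV i _ hbV)) (hV i y hy)
    · exact Submodule.mem_sup_left ⟨_, haU, rfl⟩
    · have h1 := Submodule.finrank_add_le_finrank_add_finrank
        (U.map (LinearMap.mulRight F b.poly)) V
      have h2 := Submodule.finrank_map_le (LinearMap.mulRight F b.poly) U
      simp only [Formula.size]; omega

noncomputable def nilp : ℕ → Submodule F (FreeAlgebra F (Fin n))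
  | 0 => ⊥
  | k + 1 => ⨅ i, (nilp k).comap (dq i)

theorem nilp_mono (k : ℕ) : (nilp k : Submodule F (FreeAlgebra F (Fin n))) ≤ nilp (k + 1) := by
  induction k with
  | zero => exact bot_le
  | succ k ih =>
    intro v hv
    simp only [nilp, Submodule.mem_iInf, Submodule.mem_comap] at hv ih ⊢
    intro i
    have := ih (hv i)
    simpa [Submodule.mem_iInf] using this

theorem exists_nilp (a : FreeAlgebra F (Fin n)) : ∃ k, a ∈ nilp k := by
  have hm : Monotone (nilp : ℕ → Submodule F (FreeAlgebra F (Fin n))) :=
    monotone_nat_of_le_succ nilp_mono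
  have : a ∈ ⨆ k, (nilp k : Submodule F (FreeAlgebra F (Fin n))) := by
    apply left_induction
    · refine Submodule.mem_iSup_of_mem 1 ?_
      simp [nilp, dq_one]
    · intro j w hw
      obtain ⟨k, hk⟩ := (Submodule.mem_iSup_of_directed _ hm.directed_le).1 hw
      refine Submodule.mem_iSup_of_mem (k + 1) ?_
      simp only [nilp, Submodule.mem_iInf, Submodule.mem_comap, dq_mul_gen]
      intro i
      split_ifs
      · exact hk
      · simp
  exact (Submodule.mem_iSup_of_directed _ hm.directed_le).1 this

theorem nil_induction (P : FreeAlgebra F (Fin n) → Prop) (h0 : P 0)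
    (step : ∀ a, (∀ i, P (dq i a)) → P a) (a : FreeAlgebra F (Fin n)) : P a := by
  obtain ⟨k, hk⟩ := exists_nilp a
  induction k generalizing a with
  | zero =>
    have : a = 0 := by simpa [nilp] using hk
    rw [this]; exact h0
  | succ k ih =>
    apply step
    intro i
    apply ih
    simp only [nilp, Submodule.mem_iInf, Submodule.mem_comap] at hk
    exact hk i

end Vale.Agent.P314
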