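import Vale.Agent.P314.Free
import Vale.Agent.P314.Casorati

namespace Vale.Agent.P314

open PowerSeries

universe u

/-- the series `X ^ e / (1 - X ^ d)` -/
noncomputable def geo (S : Type*) [CommRing S] (d e : ℕ) : S⟦X⟧ :=
  PowerSeries.mk fun j => if e ≤ j ∧ d ∣ j - e then 1 else 0

theorem geo_spec (S : Type*) [CommRing S] {d : ℕ} (hd : 0 < d) (e : ℕ) :
    (1 - X ^ d) * geo S d e = X ^ e := by
  ext j
  rw [sub_mul, one_mul, map_sub, coeff_X_pow_mul', coeff_X_pow]
  simp only [geo, coeff_mk]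
  by_cases h1 : j = e
  · subst h1
    rw [if_pos ⟨le_rfl, by simp⟩, if_pos rfl]
    split_ifs with h1 h2
    · omega
    · simp
    · simp
  · rw [if_neg h1]
    by_cases h2 : e ≤ j ∧ d ∣ j - e
    · have h3 : d ≤ j - e := Nat.le_of_dvd (by omega) h2.2
      have h4 : e ≤ j - d ∧ d ∣ j - d - e := by
        refine ⟨by omega, ?_⟩
        have : j - d - e = j - e - d := by omega
        rw [this]
        exact Nat.dvd_sub h2.2 dvd_rfl
      rw [if_pos h2, if_pos (by omega), if_pos h4, sub_self]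
    · rw [if_neg h2]
      split_ifs with h3 h4
      · exfalso
        apply h2
        refine ⟨by omega, ?_⟩
        have : j - e = (j - d - e) + d := by omega
        rw [this]
        exact dvd_add h4.2 dvd_rfl
      · simp
      · simp

theorem coeff_geo_mul {S : Type*} [CommRing S] (d e : ℕ) (g : S⟦X⟧) {m D : ℕ} (hm : m < D) :
    coeff m (geo S d e * g) =
      ∑ k ∈ Finset.range D, if k + e ≤ m ∧ d ∣ m - (k + e) then coeff k g else 0 := by
  rw [mul_comm, coeff_mul, Finset.Nat.sum_antidiagonal_eq_sum_range_succ_mk]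
  rw [← Finset.sum_subset (s₁ := Finset.range m.succ) (s₂ := Finset.range D)]
  · refine Finset.sum_congr rfl fun k hk => ?_
    have hk' : k ≤ m := by simpa [Nat.lt_succ_iff] using hk
    simp only [geo, coeff_mk]
    have : (e ≤ m - k ∧ d ∣ m - k - e) ↔ (k + e ≤ m ∧ d ∣ m - (k + e)) := by
      rw [Nat.sub_sub]
      constructor <;> rintro ⟨h1, h2⟩ <;> exact ⟨by omega, h2⟩
    simp only [this]
    split_ifs <;> simp
  · intro k hk
    simp only [Finset.mem_range] at hk ⊢
    omega
  · intro k _ hk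
    simp only [Finset.mem_range] at hk
    rw [if_neg (by omega)]

variable {F : Type u} [Field F] {n : ℕ}

/-- The operators on `F[[q]][[z]]`: multiply by `z ^ (i+1) / (1 - z ^ n)`, then invert
`1 - (z ↦ q z)`. -/
noncomputable def Tinf (F : Type u) [Field F] (n : ℕ) (i : Fin n) : Module.End F F⟦X⟧⟦X⟧ where
  toFun g := PowerSeries.mk fun m => geo F m 0 * coeff m (geo F⟦X⟧ n (i.1 + 1) * g)
  map_add' a b := by ext1 m; simp [mul_add]
  map_smul' c a := by
    ext1 m
    simp only [coeff_mk, RingHom.id_apply, mul_smul_comm]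
    rw [← algebraMap_smul F⟦X⟧ c, ← algebraMap_smul F⟦X⟧ c (PowerSeries.mk _), coeff_smul,
      coeff_smul, coeff_mk, smul_eq_mul, smul_eq_mul]
    ring

theorem coeff_Tinf (i : Fin n) (g : F⟦X⟧⟦X⟧) (m : ℕ) :
    coeff m (Tinf F n i g) = geo F m 0 * coeff m (geo F⟦X⟧ n (i.1 + 1) * g) := by
  simp [Tinf]

theorem Tinf_spec (i : Fin n) (g : F⟦X⟧⟦X⟧) :
    (1 - X ^ n) * (Tinf F n i g - rescale X (Tinf F n i g)) = X ^ (i.1 + 1) * g := by
  have h1 : Tinf F n i g - rescale X (Tinf F n i g) = geo F⟦X⟧ n (i.1 + 1) * g := by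
    ext1 m
    rw [map_sub, coeff_rescale, coeff_Tinf]
    rcases Nat.eq_zero_or_pos m with rfl | hm
    · rw [pow_zero, one_mul, sub_self, coeff_geo_mul _ _ _ Nat.one_pos]
      simp
    · have := geo_spec F hm 0
      linear_combination (coeff m (geo F⟦X⟧ n (i.1 + 1) * g)) * this
  rw [h1, ← mul_assoc, geo_spec _ i.pos]

/-- evaluation of a noncommutative polynomial at the operators, applied to `1` -/
noncomputable def Phi : FreeAlgebra F (Fin n) →ₗ[F] F⟦X⟧⟦X⟧ where
  toFun v := FreeAlgebra.lift F (Tinf F n) v 1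
  map_add' a b := by simp
  map_smul' c a := by simp

theorem Phi_apply (v : FreeAlgebra F (Fin n)) : Phi v = FreeAlgebra.lift F (Tinf F n) v 1 := rfl

theorem Phi_one : Phi (1 : FreeAlgebra F (Fin n)) = 1 := by simp [Phi_apply]

theorem smul_eq_CC (c : F) (g : F⟦X⟧⟦X⟧) : c • g = C (C c) * g := by
  rw [← algebraMap_smul F⟦X⟧ c, smul_eq_C_mul]
  rfl

theorem rescale_C' {S : Type*} [CommRing S] (a b : S) : rescale a (C b) = C b := by
  ext m
  rw [coeff_rescale, coeff_C]
  split_ifs with h
  · simp [h]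
  · simp

theorem Phi_spec (v : FreeAlgebra F (Fin n)) :
    (1 - X ^ n) * (Phi v - rescale X (Phi v)) = ∑ i : Fin n, X ^ (i.1 + 1) * Phi (dq i v) := by
  have h : Phi v = C (C (eps v)) + ∑ i, Tinf F n i (Phi (dq i v)) := by
    conv_lhs => rw [decomp v]
    rw [map_add, map_sum, Algebra.algebraMap_eq_smul_one, map_smul, Phi_one, smul_eq_CC, mul_one]
    congr 1
    refine Finset.sum_congr rfl fun i _ => ?_
    simp [Phi_apply]
  rw [h, map_add, map_sum, rescale_C', add_sub_add_left_eq_sub, ← Finset.sum_sub_distrib,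
    Finset.mul_sum]
  exact Finset.sum_congr rfl fun i _ => Tinf_spec i _

/-- The entry predicate of the hitting matrices. -/
def hitB (n D i r c : ℕ) : Bool :=
  decide ((c / D + (i + 1) ≤ r / D ∧ n ∣ r / D - (c / D + (i + 1))) ∧
    (c % D ≤ r % D ∧ r / D ∣ r % D - c % D))

/-- The hitting matrices. -/
def hitMat (n D : ℕ) : Fin n → Matrix (Fin (D * D)) (Fin (D * D)) Bool :=
  fun i r c => hitB n D i r c

/-- The hitting matrices over `F`. -/
def hitF (F : Type u) [Field F] (n D : ℕ) : Fin n → Matrix (Fin (D * D)) (Fin (D * D)) F :=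
  fun i r c => if hitMat n D i r c then 1 else 0

/-- truncation -/
noncomputable def trunc2 (F : Type u) [Field F] (D : ℕ) : F⟦X⟧⟦X⟧ →ₗ[F] (Fin (D * D) → F) where
  toFun g r := coeff (r.1 % D) (coeff (r.1 / D) g)
  map_add' a b := by ext r; simp
  map_smul' c a := by
    ext r
    simp [smul_eq_CC]

theorem sum_range_mul_div_mod {M : Type*} [AddCommMonoid M] (A : ℕ) {D : ℕ} (hD : 0 < D)
    (f : ℕ → ℕ → M) :
    ∑ c ∈ Finset.range (A * D), f (c / D) (c % D) =
      ∑ k ∈ Finset.range A, ∑ b ∈ Finset.range D, f k b := by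
  induction A with
  | zero => simp
  | succ A ih =>
    rw [Nat.succ_mul, Finset.sum_range_add, ih, Finset.sum_range_succ]
    congr 1
    refine Finset.sum_congr rfl fun b hb => ?_
    have hb' := Finset.mem_range.1 hb
    rw [Nat.mul_comm A D, Nat.mul_add_div hD, Nat.mul_add_mod, Nat.div_eq_of_lt hb',
      Nat.mod_eq_of_lt hb', add_zero]

theorem trunc2_Tinf (D : ℕ) (i : Fin n) (g : F⟦X⟧⟦X⟧) :
    trunc2 F D (Tinf F n i g) = (hitF F n D i).mulVec (trunc2 F D g) := by
  ext r
  have hD : 0 < D := Nat.pos_of_mul_pos_left r.pos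
  have hm : r.1 / D < D := Nat.div_lt_of_lt_mul r.2
  have ha : r.1 % D < D := Nat.mod_lt _ hD
  have hR : (hitF F n D i).mulVec (trunc2 F D g) r =
      ∑ k ∈ Finset.range D, ∑ b ∈ Finset.range D,
        if (k + (i.1 + 1) ≤ r.1 / D ∧ n ∣ r.1 / D - (k + (i.1 + 1))) ∧
          (b ≤ r.1 % D ∧ r.1 / D ∣ r.1 % D - b) then coeff b (coeff k g) else 0 := by
    rw [← sum_range_mul_div_mod D hD, ← Fin.sum_univ_eq_sum_range]
    simp only [Matrix.mulVec, dotProduct, hitF, hitMat, hitB, trunc2, LinearMap.coe_mk,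
      AddHom.coe_mk, decide_eq_true_eq, ite_mul, one_mul, zero_mul]
  rw [hR]
  change coeff (r.1 % D) (coeff (r.1 / D) (Tinf F n i g)) = _
  rw [coeff_Tinf, coeff_geo_mul _ _ _ ha, coeff_geo_mul _ _ _ hm, Finset.sum_comm]
  refine Finset.sum_congr rfl fun b _ => ?_
  simp only [map_sum, add_zero]
  split_ifs with h
  · refine Finset.sum_congr rfl fun k _ => ?_
    simp only [h, and_self, and_true]
    split_ifs <;> simp
  · simp [h]

theorem trunc2_lift (D : ℕ) (v : FreeAlgebra F (Fin n)) (g : F⟦X⟧⟦X⟧) :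
    trunc2 F D (FreeAlgebra.lift F (Tinf F n) v g) =
      (FreeAlgebra.lift F (hitF F n D) v).mulVec (trunc2 F D g) := by
  induction v using FreeAlgebra.induction generalizing g with
  | grade0 c =>
    rw [AlgHom.commutes, AlgHom.commutes, Algebra.algebraMap_eq_smul_one,
      Algebra.algebraMap_eq_smul_one, Matrix.smul_mulVec, Matrix.one_mulVec]
    simp
  | grade1 i => simpa using trunc2_Tinf D i g
  | mul a b ha hb => rw [map_mul, map_mul, Module.End.mul_apply, ha, hb, Matrix.mulVec_mulVec]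
  | add a b ha hb => rw [map_add, map_add, LinearMap.add_apply, map_add, ha, hb, Matrix.add_mulVec]

/-- the series that vanish to order `D` in the truncation -/
def vanI (F : Type u) [Field F] (D : ℕ) : Ideal F⟦X⟧⟦X⟧ where
  carrier := {g | ∀ m < D, (X : F⟦X⟧) ^ D ∣ coeff m g}
  zero_mem' := by simp
  add_mem' := fun {a b} ha hb m hm => by rw [map_add]; exact dvd_add (ha m hm) (hb m hm)
  smul_mem' := fun c g hg m hm => by
    rw [smul_eq_mul, coeff_mul]
    apply Finset.dvd_sum
    intro x hx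
    have := Finset.HasAntidiagonal.mem_antidiagonal.1 hx
    exact (hg x.2 (by omega)).mul_left _

theorem mem_vanI {D : ℕ} {g : F⟦X⟧⟦X⟧} :
    g ∈ vanI F D ↔ ∀ m < D, (X : F⟦X⟧) ^ D ∣ coeff m g := Iff.rfl

theorem rescale_mem_vanI {D : ℕ} {g : F⟦X⟧⟦X⟧} (h : g ∈ vanI F D) : rescale X g ∈ vanI F D := by
  intro m hm
  rw [coeff_rescale]
  exact (h m hm).mul_left _

theorem mem_vanI_of_trunc2 {D : ℕ} {g : F⟦X⟧⟦X⟧} (h : trunc2 F D g = 0) : g ∈ vanI F D := by
  intro m hm
  rw [X_pow_dvd_iff]
  intro a ha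
  have hlt : m * D + a < D * D := by nlinarith
  have := congrFun h ⟨m * D + a, hlt⟩
  have hD : 0 < D := by omega
  simp only [trunc2, LinearMap.coe_mk, AddHom.coe_mk, Pi.zero_apply] at this
  rwa [Nat.mul_comm m D, Nat.mul_add_div hD, Nat.mul_add_mod, Nat.div_eq_of_lt ha,
    Nat.mod_eq_of_lt ha, add_zero] at this

/-- the inclusion `F[q][z] → F[[q]][[z]]` -/
noncomputable def incl (F : Type u) [Field F] : Polynomial (Polynomial F) →+* F⟦X⟧⟦X⟧ :=
  Polynomial.coeToPowerSeries.ringHom.comp
    (Polynomial.mapRingHom Polynomial.coeToPowerSeries.ringHom)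

theorem coeff_incl (p : Polynomial (Polynomial F)) (m : ℕ) :
    coeff m (incl F p) = ((p.coeff m : Polynomial F) : F⟦X⟧) := by
  simp [incl]

theorem incl_sc (p : Polynomial (Polynomial F)) :
    incl F (sc Polynomial.X p) = rescale X (incl F p) := by
  ext1 m
  rw [coeff_rescale, coeff_incl, coeff_incl, sc_coeff]
  simp [mul_comm]

theorem incl_X : incl F Polynomial.X = X := by simp [incl]

theorem incl_CC (a : F) : incl F (Polynomial.C (Polynomial.C a)) = C (C a) := by simp [incl]

theorem eq_zero_of_incl_mem {D a b : ℕ} {p : Polynomial (Polynomial F)} (hp : Bdd a b p)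
    (ha : a < D) (hb : b < D) (h : incl F p ∈ vanI F D) : p = 0 := by
  ext m j
  by_cases hm : m < D
  · by_cases hj : j < D
    · have := X_pow_dvd_iff.1 (h m hm) j hj
      rw [coeff_incl] at this
      simpa using this
    · rw [Polynomial.coeff_eq_zero_of_natDegree_lt ((hp.2 m).trans_lt (by omega))]; simp
  · rw [Polynomial.coeff_eq_zero_of_natDegree_lt (p := p) (hp.1.trans_lt (by omega))]; simp

theorem hit_of_closed (hn : 0 < n) (U : Submodule F (FreeAlgebra F (Fin n))) (hU : QClosed U)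
    [FiniteDimensional F U] {f : FreeAlgebra F (Fin n)} (hfU : f ∈ U) (hf : f ≠ 0) {D : ℕ}
    (hD : n * Module.finrank F U ^ 3 < D) :
    FreeAlgebra.lift F (hitF F n D) f ≠ 0 := by
  classical
  intro hzero
  let V : Submodule F (FreeAlgebra F (Fin n)) := sInf {W | f ∈ W ∧ QClosed W}
  have hVU : V ≤ U := sInf_le ⟨hfU, hU⟩
  have hfV : f ∈ V := Submodule.mem_sInf.2 fun W hW => hW.1
  have hVc : QClosed V := fun i v hv =>
    Submodule.mem_sInf.2 fun W hW => hW.2 i v (Submodule.mem_sInf.1 hv W hW)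
  have : FiniteDimensional F V := Submodule.finiteDimensional_of_le hVU
  set r := Module.finrank F V with hr
  have hrU : r ≤ Module.finrank F U := Submodule.finrank_mono hVU
  have hr0 : 0 < r := by
    rw [hr, Module.finrank_pos_iff_exists_ne_zero]
    exact ⟨⟨f, hfV⟩, fun h => hf (congrArg Subtype.val h)⟩
  let bs : Module.Basis (Fin r) F V := Module.finBasis F V
  let Dq : Fin n → V →ₗ[F] V := fun i => (dq i).restrict (hVc i)
  have hDq : ∀ i (v : V), (Dq i v : FreeAlgebra F (Fin n)) = dq i v := fun _ _ => rfl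
  have hdet := det_ne_zero hn Dq (by
      intro Q h0 hstep a
      have : ∀ a : FreeAlgebra F (Fin n), ∀ ha : a ∈ V, Q ⟨a, ha⟩ := by
        apply nil_induction
        · intro _; exact h0
        · intro a ih ha
          exact hstep _ fun i => ih i (hVc i a ha)
      exact this a.1 a.2) ⟨f, hfV⟩ (by
      intro W hfW hW
      have h1 : V ≤ W.map V.subtype := by
        refine sInf_le ⟨⟨_, hfW, rfl⟩, ?_⟩
        rintro i _ ⟨v, hv, rfl⟩
        exact ⟨_, hW i v hv, rfl⟩
      rw [eq_top_iff]
      intro v _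
      obtain ⟨w, hw, hwv⟩ := h1 v.2
      have : w = v := Subtype.ext hwv
      rwa [← this]) bs hr0
  set A : Fin n → Matrix (Fin r) (Fin r) F := fun i => LinearMap.toMatrix bs bs (Dq i) with hA
  set c : Fin r → F := ⇑(bs.repr ⟨f, hfV⟩) with hc
  have hexp : ∀ v : V, Phi (v : FreeAlgebra F (Fin n)) =
      ∑ j, C (C (bs.repr v j)) * Phi (bs j : FreeAlgebra F (Fin n)) := by
    intro v
    conv_lhs => rw [← bs.sum_repr v]
    simp only [Submodule.coe_sum, Submodule.coe_smul, map_sum, map_smul, smul_eq_CC]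
  have hf0 : Phi f ∈ vanI F D := by
    apply mem_vanI_of_trunc2
    rw [Phi_apply, trunc2_lift, hzero, Matrix.zero_mulVec]
  have hk : ∀ k, ∑ j, incl F (pseq A c k j) * Phi (bs j : FreeAlgebra F (Fin n)) ∈ vanI F D := by
    intro k
    induction k with
    | zero =>
      simp only [pseq, incl_CC]
      rw [← hexp]; exact hf0
    | succ k ih =>
      have h1 := (vanI F D).mul_mem_left (1 - X ^ n) (rescale_mem_vanI ih)
      convert h1 using 1
      have h2 : ∀ j, (1 - X ^ n) * rescale X (Phi (bs j : FreeAlgebra F (Fin n))) =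
          (1 - X ^ n) * Phi (bs j : FreeAlgebra F (Fin n)) - ∑ i : Fin n, X ^ (i.1 + 1) *
            ∑ l, C (C (A i l j)) * Phi (bs l : FreeAlgebra F (Fin n)) := by
        intro j
        have h3 := Phi_spec (bs j : FreeAlgebra F (Fin n))
        simp only [← hDq, hexp (Dq _ _)] at h3
        simp only [hA, LinearMap.toMatrix_apply]
        linear_combination -h3
      simp only [pseq, map_sub, map_mul, map_sum, map_one, map_pow, incl_X, incl_CC, incl_sc]
      rw [Finset.mul_sum]
      have h4 : ∀ j, (1 - X ^ n) * (rescale X (incl F (pseq A c k j)) *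
          rescale X (Phi (bs j : FreeAlgebra F (Fin n)))) = rescale X (incl F (pseq A c k j)) *
            ((1 - X ^ n) * rescale X (Phi (bs j : FreeAlgebra F (Fin n)))) := fun j => by ring
      simp only [h4, h2, sub_mul, mul_sub, Finset.sum_sub_distrib, Finset.mul_sum,
        Finset.sum_mul]
      congr 1
      · congr 1
        · refine Finset.sum_congr rfl fun j _ => by ring
        · refine Finset.sum_congr rfl fun j _ => by ring
      · rw [Finset.sum_comm]
        conv_rhs => rw [Finset.sum_comm]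
        refine Finset.sum_congr rfl fun i _ => ?_
        rw [Finset.sum_comm]
        refine Finset.sum_congr rfl fun j _ => Finset.sum_congr rfl fun l _ => by ring
  let Λ : Matrix (Fin r) (Fin r) F⟦X⟧⟦X⟧ := Matrix.of fun k l => incl F (pseq A c k l)
  have hdj : ∀ j, Λ.det * Phi (bs j : FreeAlgebra F (Fin n)) ∈ vanI F D := by
    intro j
    have h1 : Λ.adjugate.mulVec (Λ.mulVec fun l => Phi (bs l : FreeAlgebra F (Fin n))) j =
        Λ.det * Phi (bs j : FreeAlgebra F (Fin n)) := by
      rw [Matrix.mulVec_mulVec, Matrix.adjugate_mul, Matrix.smul_mulVec, Matrix.one_mulVec]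
      rfl
    rw [← h1]
    change ∑ k, Λ.adjugate j k * ∑ l, incl F (pseq A c k.1 l) *
      Phi (bs l : FreeAlgebra F (Fin n)) ∈ vanI F D
    exact Ideal.sum_mem _ fun k _ => (vanI F D).mul_mem_left _ (hk k.1)
  have hone : (1 : FreeAlgebra F (Fin n)) ∈ V := by
    have : ∀ v : FreeAlgebra F (Fin n), v ∈ V → v = 0 ∨ (1 : FreeAlgebra F (Fin n)) ∈ V := by
      apply nil_induction
      · intro _; exact Or.inl rfl
      · intro a ih ha
        by_cases h1 : (1 : FreeAlgebra F (Fin n)) ∈ V
        · exact Or.inr h1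
        · left
          have h2 : ∀ i, dq i a = 0 := fun i => (ih i (hVc i a ha)).resolve_right h1
          have h3 := decomp a
          simp only [h2, mul_zero, Finset.sum_const_zero, add_zero] at h3
          by_contra hne
          apply h1
          have h4 : eps a ≠ 0 := by
            intro h; rw [h, map_zero] at h3; exact hne h3
          have h5 := V.smul_mem (eps a)⁻¹ ha
          generalize eps a = t at h3 h4 h5
          rwa [h3, Algebra.algebraMap_eq_smul_one, smul_smul, inv_mul_cancel₀ h4, one_smul] at h5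
    exact (this f hfV).resolve_left hf
  have hdI : Λ.det ∈ vanI F D := by
    have h1 := hexp ⟨1, hone⟩
    rw [Phi_one] at h1
    rw [← mul_one Λ.det, h1, Finset.mul_sum]
    refine Ideal.sum_mem _ fun j _ => ?_
    rw [mul_left_comm]
    exact (vanI F D).mul_mem_left _ (hdj j)
  apply hdet
  have h3 : n * r ^ 3 < D :=
    lt_of_le_of_lt (Nat.mul_le_mul_left _ (Nat.pow_le_pow_left hrU 3)) hD
  refine eq_zero_of_incl_mem (det_pseq_bdd A c) (lt_of_le_of_lt ?_ h3) h3 ?_
  · exact Nat.mul_le_mul_left _ (Nat.pow_le_pow_right hr0 (by norm_num))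
  · rw [RingHom.map_det]; exact hdI

/-- the side length of the index grid -/
def side (n s : ℕ) : ℕ := n * (s + 1) ^ 3 + 1

theorem hitting (F : Type u) [Field F] (n s : ℕ) :
    IsHittingSet n s [ofBool F (hitMat n (side n s))] := by
  intro φ hφ hne
  refine ⟨_, List.mem_singleton_self _, ?_⟩
  change FreeAlgebra.lift F (hitF F n (side n s)) φ.poly ≠ 0
  rcases Nat.eq_zero_or_pos n with rfl | hn
  · have h := decomp φ.poly
    simp only [Finset.univ_eq_empty, Finset.sum_empty, add_zero] at h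
    rw [h, AlgHom.commutes]
    have : Nonempty (Fin (side 0 s * side 0 s)) := ⟨⟨0, by simp [side]⟩⟩
    rw [Ne, map_eq_zero_iff _ (algebraMap F _).injective]
    intro h0
    rw [h0, map_zero] at h
    exact hne h
  · obtain ⟨U, hU, hφU, hfin, hr⟩ := exists_closed φ
    apply hit_of_closed hn U hU hφU hne
    unfold side
    have : Module.finrank F U ≤ s + 1 := by omega
    exact Nat.lt_succ_of_le (Nat.mul_le_mul_left _ (Nat.pow_le_pow_left this 3))

end Vale.Agent.P314
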