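import Vale.Agent.Lib.helper17.Macros
import Vale.Agent.P314.Series

namespace Vale.Agent.P314

open Vale.Agent.Lib.Counter Computability Function

/-- register file -/
def rg (n s D i m a k b u w e t : ℕ) : Fin 12 → ℕ := ![n, s, D, i, m, a, k, b, u, w, e, t]

section
variable (n s D i m a k b u w e t x : ℕ)

theorem rg_0 : rg n s D i m a k b u w e t 0 = n := rfl
theorem rg_1 : rg n s D i m a k b u w e t 1 = s := rfl
theorem rg_2 : rg n s D i m a k b u w e t 2 = D := rfl
theorem rg_3 : rg n s D i m a k b u w e t 3 = i := rfl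
theorem rg_4 : rg n s D i m a k b u w e t 4 = m := rfl
theorem rg_5 : rg n s D i m a k b u w e t 5 = a := rfl
theorem rg_6 : rg n s D i m a k b u w e t 6 = k := rfl
theorem rg_7 : rg n s D i m a k b u w e t 7 = b := rfl
theorem rg_8 : rg n s D i m a k b u w e t 8 = u := rfl
theorem rg_9 : rg n s D i m a k b u w e t 9 = w := rfl
theorem rg_10 : rg n s D i m a k b u w e t 10 = e := rfl
theorem rg_11 : rg n s D i m a k b u w e t 11 = t := rfl
theorem up_0 : update (rg n s D i m a k b u w e t) 0 x = rg x s D i m a k b u w e t := by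
  funext y; fin_cases y <;> rfl
theorem up_1 : update (rg n s D i m a k b u w e t) 1 x = rg n x D i m a k b u w e t := by
  funext y; fin_cases y <;> rfl
theorem up_2 : update (rg n s D i m a k b u w e t) 2 x = rg n s x i m a k b u w e t := by
  funext y; fin_cases y <;> rfl
theorem up_3 : update (rg n s D i m a k b u w e t) 3 x = rg n s D x m a k b u w e t := by
  funext y; fin_cases y <;> rfl
theorem up_4 : update (rg n s D i m a k b u w e t) 4 x = rg n s D i x a k b u w e t := by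
  funext y; fin_cases y <;> rfl
theorem up_5 : update (rg n s D i m a k b u w e t) 5 x = rg n s D i m x k b u w e t := by
  funext y; fin_cases y <;> rfl
theorem up_6 : update (rg n s D i m a k b u w e t) 6 x = rg n s D i m a x b u w e t := by
  funext y; fin_cases y <;> rfl
theorem up_7 : update (rg n s D i m a k b u w e t) 7 x = rg n s D i m a k x u w e t := by
  funext y; fin_cases y <;> rfl
theorem up_8 : update (rg n s D i m a k b u w e t) 8 x = rg n s D i m a k b x w e t := by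
  funext y; fin_cases y <;> rfl
theorem up_9 : update (rg n s D i m a k b u w e t) 9 x = rg n s D i m a k b u x e t := by
  funext y; fin_cases y <;> rfl
theorem up_10 : update (rg n s D i m a k b u w e t) 10 x = rg n s D i m a k b u w x t := by
  funext y; fin_cases y <;> rfl
theorem up_11 : update (rg n s D i m a k b u w e t) 11 x = rg n s D i m a k b u w e x := by
  funext y; fin_cases y <;> rfl
end

attribute [local simp] rg_0 rg_1 rg_2 rg_3 rg_4 rg_5 rg_6 rg_7 rg_8 rg_9 rg_10 rg_11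
  up_0 up_1 up_2 up_3 up_4 up_5 up_6 up_7 up_8 up_9 up_10 up_11

abbrev PG := Prog (Fin 12) Γ'

/-- prints the code of one matrix entry -/
def inner (c0 c1 : List Γ') : PG :=
  .seq (addTo 10 6 11) <| .seq (addTo 10 3 11) <| .seq (.inc 10) <| .seq (subFrom 10 4 11) <|
  .seq (addTo 8 4 11) <| .seq (subFrom 8 6 11) <| .seq (subFrom 8 3 11) <| .seq (.dec 8) <|
  .seq (resid 9 8 0 11) <| .seq (move 9 10) <|
  .seq (addTo 9 7 11) <| .seq (subFrom 9 5 11) <| .seq (move 9 10) <|
  .seq (addTo 8 5 11) <| .seq (subFrom 8 7 11) <| .seq (resid 9 8 4 11) <| .seq (move 9 10) <|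
  .seq (.ite (.nz 10) (.emit c0) (.emit c1)) (clear 10)

/-- the entry condition -/
def cnd (n i m a k b : ℕ) : Prop :=
  (k + (i + 1) ≤ m ∧ n ∣ m - (k + (i + 1))) ∧ (b ≤ a ∧ m ∣ a - b)

instance (n i m a k b : ℕ) : Decidable (cnd n i m a k b) := by unfold cnd; infer_instance

def cIn (B : ℕ) : ℕ := 14 * B * B + 200 * B + 100

theorem inner_spec (c0 c1 : List Γ') {n s D i m a k b B : ℕ} (hn0 : 0 < n) (hn : n ≤ B)
    (hi : i ≤ B) (hm : m ≤ B) (ha : a ≤ B) (hk : k ≤ B) (hb : b ≤ B) :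
    Emits (inner c0 c1) (rg n s D i m a k b 0 0 0 0) (if cnd n i m a k b then c1 else c0)
      (cIn B) := by
  intro inp o
  have h1 := Runs.addTo (s := 10) (r := 6) (t := 11) (by decide) (by decide) (by decide)
    (rg n s D i m a k b 0 0 0 0) inp o rfl hk
  have h2 := Runs.addTo (s := 10) (r := 3) (t := 11) (by decide) (by decide) (by decide)
    (rg n s D i m a k b 0 0 k 0) inp o rfl hi
  have h3 := Runs.inc 10 (rg n s D i m a k b 0 0 (k + i) 0) inp o
  have h4 := Runs.subFrom (s := 10) (r := 4) (t := 11) (by decide) (by decide) (by decide)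
    (rg n s D i m a k b 0 0 (k + i + 1) 0) inp o rfl hm
  set e1 := k + i + 1 - m with he1
  have h5 := Runs.addTo (s := 8) (r := 4) (t := 11) (by decide) (by decide) (by decide)
    (rg n s D i m a k b 0 0 e1 0) inp o rfl hm
  have h6 := Runs.subFrom (s := 8) (r := 6) (t := 11) (by decide) (by decide) (by decide)
    (rg n s D i m a k b m 0 e1 0) inp o rfl hk
  have h7 := Runs.subFrom (s := 8) (r := 3) (t := 11) (by decide) (by decide) (by decide)
    (rg n s D i m a k b (m - k) 0 e1 0) inp o rfl hi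
  have h8 := Runs.dec 8 (rg n s D i m a k b (m - k - i) 0 e1 0) inp o
  have h9 := Runs.resid (w := 9) (u := 8) (z := 0) (t := 11) (by decide) (by decide) (by decide)
    (by decide) (by decide) (by decide) (rg n s D i m a k b (m - k - i - 1) 0 e1 0) inp o rfl rfl
    (B := B) (by simp; omega) hn
  set r1 := res n (m - k - i - 1) with hr1
  have hr1B : r1 ≤ B := (res_le _ _).trans hn
  have h10 := Runs.move (r := 9) (s := 10) (by decide) (rg n s D i m a k b 0 r1 e1 0) inp o hr1B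
  have h11 := Runs.addTo (s := 9) (r := 7) (t := 11) (by decide) (by decide) (by decide)
    (rg n s D i m a k b 0 0 (e1 + r1) 0) inp o rfl hb
  have h12 := Runs.subFrom (s := 9) (r := 5) (t := 11) (by decide) (by decide) (by decide)
    (rg n s D i m a k b 0 b (e1 + r1) 0) inp o rfl ha
  have h13 := Runs.move (r := 9) (s := 10) (by decide)
    (rg n s D i m a k b 0 (b - a) (e1 + r1) 0) inp o (B := B) (by simp; omega)
  set e2 := e1 + r1 + (b - a) with he2
  have h14 := Runs.addTo (s := 8) (r := 5) (t := 11) (by decide) (by decide) (by decide)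
    (rg n s D i m a k b 0 0 e2 0) inp o rfl ha
  have h15 := Runs.subFrom (s := 8) (r := 7) (t := 11) (by decide) (by decide) (by decide)
    (rg n s D i m a k b a 0 e2 0) inp o rfl hb
  have h16 := Runs.resid (w := 9) (u := 8) (z := 4) (t := 11) (by decide) (by decide) (by decide)
    (by decide) (by decide) (by decide) (rg n s D i m a k b (a - b) 0 e2 0) inp o rfl rfl
    (B := B) (by simp; omega) hm
  set r2 := res m (a - b) with hr2
  have hr2B : r2 ≤ B := (res_le _ _).trans hm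
  have h17 := Runs.move (r := 9) (s := 10) (by decide) (rg n s D i m a k b 0 r2 e2 0) inp o hr2B
  have hE : e2 + r2 = 0 ↔ cnd n i m a k b := by
    unfold cnd
    have e : m - (k + (i + 1)) = m - k - i - 1 := by omega
    rw [e, ← res_eq_zero_iff hn0, ← hr1]
    constructor
    · intro h
      have hm0 : 0 < m := by omega
      rw [← res_eq_zero_iff hm0, ← hr2]
      omega
    · rintro ⟨⟨g1, g2⟩, g3, g4⟩
      have hm0 : 0 < m := by omega
      rw [← res_eq_zero_iff hm0, ← hr2] at g4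
      omega
  have h18 : Runs (.ite (.nz 10) (.emit c0) (.emit c1) : PG)
      ⟨rg n s D i m a k b 0 0 (e2 + r2) 0, inp, o⟩
      ⟨rg n s D i m a k b 0 0 (e2 + r2) 0, inp, (if cnd n i m a k b then c1 else c0) ++ o⟩
      (1 + 1) := by
    by_cases hc : cnd n i m a k b
    · rw [if_pos hc]
      exact Runs.iteF (by simp only [Test.eval, rg_10, hE.2 hc]; rfl) (Runs.emit _ _ _ _)
    · rw [if_neg hc]
      refine Runs.iteT ?_ (Runs.emit _ _ _ _)
      simp only [Test.eval, rg_10]
      exact decide_eq_true fun h => hc (hE.1 h)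
  have h19 := Runs.clear 10 (rg n s D i m a k b 0 0 (e2 + r2) 0) inp
    ((if cnd n i m a k b then c1 else c0) ++ o) (B := 5 * B + 1) (by simp; omega)
  simp only [rg_0, rg_3, rg_4, rg_5, rg_6, rg_7, rg_8, rg_9, rg_10, up_8, up_9, up_10,
    zero_add] at h1 h2 h3 h4 h5 h6 h7 h8 h9 h10 h11 h12 h13 h14 h15 h16 h17 h19
  refine (h1.seq <| h2.seq <| h3.seq <| h4.seq <| h5.seq <| h6.seq <| h7.seq <| h8.seq <|
    h9.seq <| h10.seq <| h11.seq <| h12.seq <| h13.seq <| h14.seq <| h15.seq <| h16.seq <|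
    h17.seq <| h18.seq h19).mono ?_
  unfold cIn
  nlinarith

/-- brackets around the output of `p` -/
def brk (p : PG) : PG := .seq (.emit [Γ'.ket]) (.seq p (.emit [Γ'.bra]))

theorem brk_spec {p : PG} {ρ : Fin 12 → ℕ} {w : List Γ'} {C : ℕ} (h : Emits p ρ w C) :
    Emits (brk p) ρ (Γ'.bra :: w ++ [Γ'.ket]) (C + 2) := by
  have := (Emits.emit [Γ'.ket] ρ).seq (h.seq (Emits.emit [Γ'.bra] ρ))
  exact this.mono (by omega)

/-- a comma after the output of `p` -/
def cma (p : PG) : PG := .seq (.emit [Γ'.comma]) p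

theorem cma_spec {p : PG} {ρ : Fin 12 → ℕ} {w : List Γ'} {C : ℕ} (h : Emits p ρ w C) :
    Emits (cma p) ρ (w ++ [Γ'.comma]) (C + 1) :=
  ((Emits.emit [Γ'.comma] ρ).seq h).mono (by omega)

def fc (B C : ℕ) : ℕ := B * (C + 9) + 3

theorem for_spec (c b : Fin 12) (hcb : c ≠ b) (hct : c ≠ 11) (hbt : b ≠ 11) {body : PG}
    {ρ : Fin 12 → ℕ} (N : ℕ) (hN : ρ b = N) (hc : ρ c = 0) (ht : ρ 11 = 0) {B C : ℕ} (hB : N ≤ B)
    (item : ℕ → List Γ') (h : ∀ j < N, Emits body (update ρ c j) (item j) C) :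
    Emits (forDown c b 11 body) ρ ((List.range N).flatMap item) (fc B C) := by
  subst hN
  exact Emits.forDown hcb hct hbt hc ht hB item h

def rowP (c0 c1 : List Γ') : PG := brk (forDown 6 2 11 (forDown 7 2 11 (cma (inner c0 c1))))
def matP (c0 c1 : List Γ') : PG := brk (forDown 4 2 11 (forDown 5 2 11 (cma (rowP c0 c1))))
def tupP (c0 c1 : List Γ') : PG := brk (forDown 3 0 11 (cma (matP c0 c1)))
def blkP : PG := forDown 4 2 11 (forDown 5 2 11 (.emit [Γ'.blank]))
def outP (c0 c1 : List Γ') : PG := brk (cma (.seq (tupP c0 c1) blkP))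

def rowW (c0 c1 : List Γ') (n D i m a : ℕ) : List Γ' :=
  Γ'.bra :: ((List.range D).flatMap fun k => (List.range D).flatMap fun b =>
    (if cnd n i m a k b then c1 else c0) ++ [Γ'.comma]) ++ [Γ'.ket]
def matW (c0 c1 : List Γ') (n D i : ℕ) : List Γ' :=
  Γ'.bra :: ((List.range D).flatMap fun m => (List.range D).flatMap fun a =>
    rowW c0 c1 n D i m a ++ [Γ'.comma]) ++ [Γ'.ket]
def tupW (c0 c1 : List Γ') (n D : ℕ) : List Γ' :=
  Γ'.bra :: ((List.range n).flatMap fun i => matW c0 c1 n D i ++ [Γ'.comma]) ++ [Γ'.ket]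
def blkW (D : ℕ) : List Γ' :=
  (List.range D).flatMap fun _ => (List.range D).flatMap fun _ => [Γ'.blank]
def outW (c0 c1 : List Γ') (n D : ℕ) : List Γ' :=
  Γ'.bra :: ((blkW D ++ tupW c0 c1 n D) ++ [Γ'.comma]) ++ [Γ'.ket]

def cRow (B : ℕ) : ℕ := fc B (fc B (cIn B + 1)) + 2
def cMat (B : ℕ) : ℕ := fc B (fc B (cRow B + 1)) + 2
def cTup (B : ℕ) : ℕ := fc B (cMat B + 1) + 2
def cOut (B : ℕ) : ℕ := cTup B + fc B (fc B 1) + 1 + 2

theorem row_spec (c0 c1 : List Γ') {n s D i m a B : ℕ} (hn0 : 0 < n) (hn : n ≤ B) (hD : D ≤ B)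
    (hi : i ≤ B) (hm : m ≤ B) (ha : a ≤ B) :
    Emits (rowP c0 c1) (rg n s D i m a 0 0 0 0 0 0) (rowW c0 c1 n D i m a) (cRow B) := by
  refine brk_spec (for_spec 6 2 (by decide) (by decide) (by decide) D rfl rfl rfl hD _ ?_)
  intro k hk
  rw [up_6]
  refine for_spec 7 2 (by decide) (by decide) (by decide) D rfl rfl rfl hD _ ?_
  intro b hb
  rw [up_7]
  exact cma_spec (inner_spec c0 c1 hn0 hn hi hm ha (hk.le.trans hD) (hb.le.trans hD))

theorem mat_spec (c0 c1 : List Γ') {n s D i B : ℕ} (hn0 : 0 < n) (hn : n ≤ B) (hD : D ≤ B)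
    (hi : i ≤ B) :
    Emits (matP c0 c1) (rg n s D i 0 0 0 0 0 0 0 0) (matW c0 c1 n D i) (cMat B) := by
  refine brk_spec (for_spec 4 2 (by decide) (by decide) (by decide) D rfl rfl rfl hD _ ?_)
  intro m hm
  rw [up_4]
  refine for_spec 5 2 (by decide) (by decide) (by decide) D rfl rfl rfl hD _ ?_
  intro a ha
  rw [up_5]
  exact cma_spec (row_spec c0 c1 hn0 hn hD hi (hm.le.trans hD) (ha.le.trans hD))

theorem tup_spec (c0 c1 : List Γ') {n s D B : ℕ} (hn : n ≤ B) (hD : D ≤ B) :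
    Emits (tupP c0 c1) (rg n s D 0 0 0 0 0 0 0 0 0) (tupW c0 c1 n D) (cTup B) := by
  refine brk_spec (for_spec 3 0 (by decide) (by decide) (by decide) n rfl rfl rfl hn _ ?_)
  intro i hi
  rw [up_3]
  have hi' : i < n := hi
  exact cma_spec (mat_spec c0 c1 (by omega) hn hD (by omega))

theorem blk_spec {n s D B : ℕ} (hD : D ≤ B) :
    Emits blkP (rg n s D 0 0 0 0 0 0 0 0 0) (blkW D) (fc B (fc B 1)) := by
  refine for_spec 4 2 (by decide) (by decide) (by decide) D rfl rfl rfl hD _ ?_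
  intro m hm
  rw [up_4]
  refine for_spec 5 2 (by decide) (by decide) (by decide) D rfl rfl rfl hD _ ?_
  intro a ha
  exact Emits.emit _ _

theorem out_spec (c0 c1 : List Γ') {n s D B : ℕ} (hn : n ≤ B) (hD : D ≤ B) :
    Emits (outP c0 c1) (rg n s D 0 0 0 0 0 0 0 0 0) (outW c0 c1 n D) (cOut B) :=
  brk_spec (cma_spec ((tup_spec c0 c1 hn hD).seq (blk_spec hD)))

/-- computes the side length, prints, and cleans up -/
def coreP (c0 c1 : List Γ') : PG :=
  .seq (.inc 1) <| .seq (addTo 8 0 11) <| .seq (mulMove 9 8 1 11) <| .seq (mulMove 8 9 1 11) <|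
  .seq (mulMove 2 8 1 11) <| .seq (.inc 2) <| .seq (outP c0 c1) <|
  .seq (clear 0) <| .seq (clear 1) (clear 2)

def cCore (B : ℕ) : ℕ := cOut B + 21 * B * B + 100 * B + 100

theorem core_spec (c0 c1 : List Γ') {n s B : ℕ} (hs : s + 1 ≤ B) (hD : side n s ≤ B) :
    Runs (coreP c0 c1) ⟨rg n s 0 0 0 0 0 0 0 0 0 0, [], []⟩
      ⟨fun _ => 0, [], outW c0 c1 n (side n s)⟩ (cCore B) := by
  have e3 : n * (s + 1) * (s + 1) * (s + 1) + 1 = side n s := by unfold side; ring
  have b2 : n * (s + 1) * (s + 1) ≤ B := by nlinarith [Nat.zero_le (n * (s + 1) * (s + 1) * s)]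
  have b1 : n * (s + 1) ≤ B := by nlinarith [Nat.zero_le (n * (s + 1) * s)]
  have b0 : n ≤ B := by nlinarith [Nat.zero_le (n * s)]
  have h1 := Runs.inc (G := Γ') 1 (rg n s 0 0 0 0 0 0 0 0 0 0) [] []
  have h2 := Runs.addTo (G := Γ') (s := 8) (r := 0) (t := 11) (by decide) (by decide) (by decide)
    (rg n (s + 1) 0 0 0 0 0 0 0 0 0 0) [] [] rfl b0
  have h3 := Runs.mulMove (G := Γ') (x := 9) (y := 8) (z := 1) (t := 11) (by decide) (by decide)
    (by decide) (by decide) (by decide) (by decide)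
    (rg n (s + 1) 0 0 0 0 0 0 n 0 0 0) [] [] rfl b0 hs
  have h4 := Runs.mulMove (G := Γ') (x := 8) (y := 9) (z := 1) (t := 11) (by decide) (by decide)
    (by decide) (by decide) (by decide) (by decide)
    (rg n (s + 1) 0 0 0 0 0 0 0 (n * (s + 1)) 0 0) [] [] rfl b1 hs
  have h5 := Runs.mulMove (G := Γ') (x := 2) (y := 8) (z := 1) (t := 11) (by decide) (by decide)
    (by decide) (by decide) (by decide) (by decide)
    (rg n (s + 1) 0 0 0 0 0 0 (n * (s + 1) * (s + 1)) 0 0 0) [] [] rfl b2 hs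
  have h6 := Runs.inc (G := Γ') 2
    (rg n (s + 1) (n * (s + 1) * (s + 1) * (s + 1)) 0 0 0 0 0 0 0 0 0) [] []
  have h7 := out_spec c0 c1 (s := s + 1) b0 hD [] []
  have h8 := Runs.clear 0 (rg n (s + 1) (side n s) 0 0 0 0 0 0 0 0 0) []
    (outW c0 c1 n (side n s)) b0
  have h9 := Runs.clear 1 (rg 0 (s + 1) (side n s) 0 0 0 0 0 0 0 0 0) []
    (outW c0 c1 n (side n s)) hs
  have h10 := Runs.clear 2 (rg 0 0 (side n s) 0 0 0 0 0 0 0 0 0) []
    (outW c0 c1 n (side n s)) hD
  simp only [rg_0, rg_1, rg_2, rg_8, rg_9, up_0, up_1, up_2, up_8, up_9, zero_add, e3,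
    List.append_nil] at h1 h2 h3 h4 h5 h6 h7 h8 h9 h10
  refine ((h1.seq <| h2.seq <| h3.seq <| h4.seq <| h5.seq <| h6.seq <| h7.seq <| h8.seq <|
    h9.seq h10).castR ?_).mono ?_
  · funext y; fin_cases y <;> rfl
  · unfold cCore; nlinarith

end Vale.Agent.P314
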