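import Vale.Agent.P314.Machine

namespace Vale.Agent.P314

open Vale.Agent.Lib.Counter Computability Function Turing

universe u

def isBit : Option Γ' → Bool
  | some (Γ'.bit _) => true
  | _ => false

def isOne : Option Γ' → Bool
  | some (Γ'.bit true) => true
  | _ => false

theorem runs_loopT {c : Test (Fin 12) Γ'} {p : PG} {s s' s'' : St (Fin 12) Γ'} {C C' : ℕ}
    (hc : c.eval s = true) (h : Runs p s s' C) (h' : Runs (.loop c p) s' s'' C') :
    Runs (.loop c p) s s'' (1 + (C + C')) := by
  obtain ⟨t, ht, he⟩ := h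
  obtain ⟨t', ht', he'⟩ := h'
  exact ⟨_, by omega, Exec.loopT hc he he'⟩

theorem runs_loopF {c : Test (Fin 12) Γ'} {p : PG} {s : St (Fin 12) Γ'}
    (hc : c.eval s = false) : Runs (.loop c p) s s 1 := ⟨1, le_rfl, Exec.loopF hc⟩

def parseU (r : Fin 12) : PG := .loop (.top isBit) (.seq .popin (.inc r))

theorem parseU_spec (r : Fin 12) (x : ℕ) (rest o : List Γ') (hrest : isBit rest.head? = false)
    (ρ : Fin 12 → ℕ) :
    Runs (parseU r) ⟨ρ, (unaryEncodeNat x).map Γ'.bit ++ rest, o⟩
      ⟨update ρ r (ρ r + x), rest, o⟩ (3 * x + 1) := by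
  induction x generalizing ρ with
  | zero => simpa [unaryEncodeNat, parseU] using runs_loopF (by simpa [Test.eval] using hrest)
  | succ x ih =>
    have h1 := (Runs.popin ρ ((unaryEncodeNat (x + 1)).map Γ'.bit ++ rest) o).seq
      (Runs.inc r ρ _ o)
    have h2 := ih (update ρ r (ρ r + 1))
    refine ((runs_loopT rfl h1 h2).castR ?_).mono (by omega)
    simp [add_assoc, add_comm 1 x]

def loopB (r : Fin 12) : PG :=
  .loop (.top isBit) (.seq (.ite (.top isOne) (addTo r 8 11) skip)
    (.seq .popin (.seq (addTo 9 8 11) (move 9 8))))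

def parseB (r : Fin 12) : PG := .seq (.inc 8) (.seq (loopB r) (clear 8))

def bval : List Bool → ℕ
  | [] => 0
  | b :: l => b.toNat + 2 * bval l

theorem loopB_spec (r : Fin 12) (h8 : r ≠ 8) (h9 : r ≠ 9) (h11 : r ≠ 11) (l : List Bool)
    (rest o : List Γ') (hrest : isBit rest.head? = false) {B : ℕ} (ρ : Fin 12 → ℕ)
    (e9 : ρ 9 = 0) (e11 : ρ 11 = 0) (hB : ρ 8 * 2 ^ l.length ≤ B) :
    Runs (loopB r) ⟨ρ, l.map Γ'.bit ++ rest, o⟩
      ⟨update (update ρ r (ρ r + ρ 8 * bval l)) 8 (ρ 8 * 2 ^ l.length), rest, o⟩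
      (l.length * (20 * B + 20) + 1) := by
  induction l generalizing ρ with
  | nil => simpa [bval, loopB] using runs_loopF (by simpa [Test.eval] using hrest)
  | cons b l ih =>
    have hp : 0 < 2 ^ l.length := by positivity
    rw [List.length_cons, pow_succ] at hB
    have hB8 : ρ 8 ≤ B := by nlinarith
    have h1 : Runs (.ite (.top isOne) (addTo r 8 11) skip : PG)
        ⟨ρ, (b :: l).map Γ'.bit ++ rest, o⟩
        ⟨update ρ r (ρ r + ρ 8 * b.toNat), (b :: l).map Γ'.bit ++ rest, o⟩ (1 + (B * 7 + 2)) := by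
      cases b
      · exact ((Runs.iteF rfl (Runs.skip _ _ _)).castR (by simp)).mono (by omega)
      · exact (Runs.iteT rfl (Runs.addTo h8 h11 (by decide) _ _ _ e11 hB8)).castR (by simp)
    set ρ1 := update ρ r (ρ r + ρ 8 * b.toNat) with hρ1
    have f8 : ρ1 8 = ρ 8 := by simp [hρ1, h8.symm]
    have f9 : ρ1 9 = 0 := by simp [hρ1, h9.symm, e9]
    have f11 : ρ1 11 = 0 := by simp [hρ1, h11.symm, e11]
    have h2 := Runs.popin ρ1 ((b :: l).map Γ'.bit ++ rest) o
    have h3 := Runs.addTo (s := 9) (r := 8) (t := 11) (by decide) (by decide) (by decide) ρ1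
      (l.map Γ'.bit ++ rest) o f11 (f8 ▸ hB8)
    have h4 := (Runs.move (r := 9) (s := 8) (by decide) (update ρ1 9 (ρ1 9 + ρ1 8))
      (l.map Γ'.bit ++ rest) o (B := B) (by simpa [f8, f9] using hB8)).castR
      (ρ' := update ρ1 8 (ρ 8 * 2)) (by
        ext x
        simp only [update_apply]
        split_ifs <;> simp_all
        omega)
    have h5 := ih (update ρ1 8 (ρ 8 * 2)) (by simpa using f9) (by simpa using f11)
      (by simp; nlinarith)
    refine ((runs_loopT rfl (h1.seq (h2.seq (h3.seq h4))) h5).castR ?_).mono ?_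
    · ext x
      simp only [update_apply, hρ1, bval, List.length_cons]
      split_ifs <;> simp_all <;> ring
    · rw [List.length_cons]; nlinarith

theorem bval_encodePosNum (p : PosNum) :
    bval (encodePosNum p) = p ∧ 2 ^ (encodePosNum p).length ≤ 2 * (p : ℕ) := by
  induction p with
  | one => simp [encodePosNum, bval]
  | bit1 p ih =>
    simp only [encodePosNum, bval, List.length_cons, pow_succ, ih.1, PosNum.cast_bit1]
    have := ih.2
    constructor
    · simp; omega
    · omega
  | bit0 p ih =>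
    simp only [encodePosNum, bval, List.length_cons, pow_succ, ih.1, PosNum.cast_bit0]
    have := ih.2
    constructor
    · simp; omega
    · omega

theorem bval_encodeNat (x : ℕ) :
    bval (encodeNat x) = x ∧ 2 ^ (encodeNat x).length ≤ 2 * x + 1 := by
  have key : ∀ m : Num, bval (encodeNum m) = m ∧ 2 ^ (encodeNum m).length ≤ 2 * (m : ℕ) + 1 := by
    intro m
    cases m with
    | zero => simp [encodeNum, bval]
    | pos p =>
      have := bval_encodePosNum p
      simp only [encodeNum, Num.cast_pos]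
      exact ⟨this.1, by omega⟩
  have := key x
  rwa [Num.to_of_nat] at this

theorem parseB_spec (r : Fin 12) (h8 : r ≠ 8) (h9 : r ≠ 9) (h11 : r ≠ 11) (x : ℕ)
    (rest o : List Γ') (hrest : isBit rest.head? = false) {B : ℕ} (ρ : Fin 12 → ℕ)
    (e8 : ρ 8 = 0) (e9 : ρ 9 = 0) (e11 : ρ 11 = 0) (hB : 2 * x + 1 ≤ B) :
    Runs (parseB r) ⟨ρ, (encodeNat x).map Γ'.bit ++ rest, o⟩
      ⟨update ρ r (ρ r + x), rest, o⟩ (20 * B * B + 30 * B + 10) := by
  obtain ⟨hv, hl⟩ := bval_encodeNat x
  have h1 := Runs.inc 8 ρ ((encodeNat x).map Γ'.bit ++ rest) o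
  have h2 := loopB_spec r h8 h9 h11 (encodeNat x) rest o hrest (B := B) (update ρ 8 (ρ 8 + 1))
    (by simpa using e9) (by simpa using e11) (by simp [e8]; omega)
  have h3 := Runs.clear 8 (update (update (update ρ 8 (ρ 8 + 1)) r
    (update ρ 8 (ρ 8 + 1) r + update ρ 8 (ρ 8 + 1) 8 * bval (encodeNat x))) 8
    (update ρ 8 (ρ 8 + 1) 8 * 2 ^ (encodeNat x).length)) rest o (B := B) (by simp [e8]; omega)
  refine ((h1.seq (h2.seq h3)).castR ?_).mono ?_
  · ext y
    simp only [update_apply]
    split_ifs <;> simp_all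
  · have : (encodeNat x).length ≤ B := by
      have := @Nat.lt_two_pow_self (encodeNat x).length
      omega
    nlinarith

def parse (binary : Bool) (r : Fin 12) : PG := if binary then parseB r else parseU r

theorem parse_spec (binary : Bool) (r : Fin 12) (h8 : r ≠ 8) (h9 : r ≠ 9) (h11 : r ≠ 11) (x : ℕ)
    (rest o : List Γ') (hrest : isBit rest.head? = false) {B : ℕ} (ρ : Fin 12 → ℕ)
    (e8 : ρ 8 = 0) (e9 : ρ 9 = 0) (e11 : ρ 11 = 0) (hB : 2 * x + 1 ≤ B) :
    Runs (parse binary r)
      ⟨ρ, (if binary then encodeNat x else unaryEncodeNat x).map Γ'.bit ++ rest, o⟩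
      ⟨update ρ r (ρ r + x), rest, o⟩ (20 * B * B + 30 * B + 10) := by
  cases binary
  · exact (parseU_spec r x rest o hrest ρ).mono (by nlinarith)
  · exact parseB_spec r h8 h9 h11 x rest o hrest ρ e8 e9 e11 hB

def mainP (binary : Bool) (c0 c1 : List Γ') : PG :=
  .seq (parse binary 0) <| .seq .popin <| .seq (parse binary 1) (coreP c0 c1)

def cMain (B : ℕ) : ℕ := cCore B + 40 * B * B + 60 * B + 21

theorem main_spec (binary : Bool) (c0 c1 : List Γ') {n s B : ℕ} (hn : 2 * n + 1 ≤ B)
    (hs : 2 * s + 1 ≤ B) (hD : side n s ≤ B) :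
    Runs (mainP binary c0 c1) ⟨fun _ => 0, encIn binary n s, []⟩
      ⟨fun _ => 0, [], outW c0 c1 n (side n s)⟩ (cMain B) := by
  have h1 := parse_spec binary 0 (by decide) (by decide) (by decide) n
    (Γ'.comma :: (if binary then encodeNat s else unaryEncodeNat s).map Γ'.bit) [] rfl
    (rg 0 0 0 0 0 0 0 0 0 0 0 0) rfl rfl rfl hn
  have h2 := Runs.popin (rg n 0 0 0 0 0 0 0 0 0 0 0)
    (Γ'.comma :: (if binary then encodeNat s else unaryEncodeNat s).map Γ'.bit) []
  have h3 := parse_spec binary 1 (by decide) (by decide) (by decide) s [] [] rfl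
    (rg n 0 0 0 0 0 0 0 0 0 0 0) rfl rfl rfl hs
  have h4 := core_spec c0 c1 (n := n) (s := s) (B := B) (by omega) hD
  simp only [rg_0, rg_1, up_0, up_1, zero_add, List.append_nil, List.tail_cons] at h1 h2 h3
  refine ((h1.seq <| h2.seq <| h3.seq h4).cast ?_ rfl).mono ?_
  · congr 1
    funext y; fin_cases y <;> rfl
  · unfold cMain; nlinarith

theorem flatMap_finRange {β : Type} (N : ℕ) (f : Fin N → List β) (g : ℕ → List β)
    (h : ∀ c : Fin N, f c = g c.1) :
    (List.finRange N).flatMap f = (List.range N).flatMap g := by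
  rw [← List.map_coe_finRange_eq_range, List.flatMap_map]
  exact List.flatMap_congr fun c _ => h c

theorem flatMap_range_mul {β : Type} (A : ℕ) {D : ℕ} (hD : 0 < D) (g : ℕ → ℕ → List β) :
    (List.range (A * D)).flatMap (fun r => g (r / D) (r % D)) =
      (List.range A).flatMap fun m => (List.range D).flatMap fun a => g m a := by
  induction A with
  | zero => simp
  | succ A ih =>
    rw [Nat.succ_mul, List.range_add, List.flatMap_append, ih, List.range_succ,
      List.flatMap_append, List.flatMap_map]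
    congr 1
    simp only [List.flatMap_cons, List.flatMap_nil, List.append_nil]
    refine List.flatMap_congr fun b hb => ?_
    have hb' := List.mem_range.1 hb
    rw [Nat.mul_comm A D, Nat.mul_add_div hD, Nat.mul_add_mod, Nat.div_eq_of_lt hb',
      Nat.mod_eq_of_lt hb', add_zero]

theorem outW_eq {F : Type u} [Field F] (e : Encoding F Bool) (n : ℕ) {D : ℕ} (hD : 0 < D) :
    encList (encPoint e) [ofBool F (hitMat n D)] =
      outW ((e.encode 0).map Γ'.bit) ((e.encode 1).map Γ'.bit) n D := by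
  set c0 := (e.encode 0).map Γ'.bit
  set c1 := (e.encode 1).map Γ'.bit
  have hblk : List.replicate (D * D) Γ'.blank = blkW D := by
    unfold blkW
    rw [← flatMap_range_mul D hD fun _ _ => [Γ'.blank]]
    generalize D * D = N
    induction N with
    | zero => rfl
    | succ N ih => rw [List.range_succ, List.flatMap_append, ← ih, List.replicate_succ']; rfl
  have hrow : ∀ (i : Fin n) (r : Fin (D * D)),
      encList (fun c : Fin (D * D) => (e.encode (hitF F n D i r c)).map Γ'.bit)
        (List.finRange (D * D)) = rowW c0 c1 n D i (r.1 / D) (r.1 % D) := by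
    intro i r
    unfold encList rowW
    rw [← flatMap_range_mul D hD fun k b =>
      (if cnd n i (r.1 / D) (r.1 % D) k b then c1 else c0) ++ [Γ'.comma]]
    congr 2
    apply flatMap_finRange
    intro c
    congr 1
    have hiff : hitMat n D i r c = true ↔ cnd n i (r.1 / D) (r.1 % D) (c.1 / D) (c.1 % D) := by
      simp only [hitMat, hitB, cnd, decide_eq_true_eq]
    change (e.encode (if hitMat n D i r c = true then 1 else 0)).map Γ'.bit = _
    by_cases hc : cnd n i (r.1 / D) (r.1 % D) (c.1 / D) (c.1 % D)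
    · rw [if_pos hc, if_pos (hiff.2 hc)]
    · rw [if_neg hc, if_neg fun h => hc (hiff.1 h)]
  have hmat : ∀ i : Fin n, encList (fun r : Fin (D * D) => rowW c0 c1 n D i (r.1 / D) (r.1 % D))
      (List.finRange (D * D)) = matW c0 c1 n D i := by
    intro i
    unfold encList matW
    rw [← flatMap_range_mul D hD fun m a => rowW c0 c1 n D i m a ++ [Γ'.comma]]
    congr 2
    exact flatMap_finRange _ _ _ fun _ => rfl
  have htup : encList (fun i : Fin n => matW c0 c1 n D i) (List.finRange n) = tupW c0 c1 n D := by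
    unfold encList tupW
    congr 2
    exact flatMap_finRange _ _ _ fun _ => rfl
  have hP : encPoint e (ofBool F (hitMat n D)) = blkW D ++ tupW c0 c1 n D := by
    change List.replicate (D * D) Γ'.blank ++ encList (fun i : Fin n => encList
      (fun r : Fin (D * D) => encList
        (fun c : Fin (D * D) => (e.encode (hitF F n D i r c)).map Γ'.bit)
        (List.finRange (D * D))) (List.finRange (D * D))) (List.finRange n) = _
    simp only [hrow, hmat, htup, hblk]
  unfold outW
  rw [← hP]
  simp [encList]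

theorem exists_poly : ∃ p : Polynomial ℕ, ∀ x : ℕ, cMain (2 * (x + 1) ^ 4 + 1) = p.eval x := by
  have key : ∀ f : ℕ → ℕ, (∃ p : Polynomial ℕ, ∀ x, f x = p.eval x) →
      ∃ p : Polynomial ℕ, ∀ x : ℕ, f (2 * (x + 1) ^ 4 + 1) = p.eval x := by
    rintro f ⟨p, hp⟩
    exact ⟨p.comp (2 * (Polynomial.X + 1) ^ 4 + 1), fun x => by simp [hp, Polynomial.eval_comp]⟩
  apply key
  let P : (ℕ → ℕ) → Prop := fun f => ∃ p : Polynomial ℕ, ∀ x, f x = p.eval x
  have hc : ∀ c, P fun _ => c := fun c => ⟨Polynomial.C c, by simp⟩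
  have hx : P fun x => x := ⟨Polynomial.X, by simp⟩
  have ha : ∀ f g, P f → P g → P fun x => f x + g x := by
    rintro f g ⟨p, hp⟩ ⟨q, hq⟩; exact ⟨p + q, by simp [hp, hq]⟩
  have hm : ∀ f g, P f → P g → P fun x => f x * g x := by
    rintro f g ⟨p, hp⟩ ⟨q, hq⟩; exact ⟨p * q, by simp [hp, hq]⟩
  change P fun x => cMain x
  unfold cMain cCore cOut cTup cMat cRow cIn fc
  repeat' first | exact hc _ | exact hx | apply ha | apply hm

theorem machine {F : Type u} [Field F] (e : Encoding F Bool) (binary : Bool) :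
    ∃ (M : TM2ComputableAux Γ' Γ') (p : Polynomial ℕ), (∀ k, Finite (M.tm.Γ k)) ∧ ∀ n s : ℕ,
      Nonempty (TM2OutputsInTime M.tm ((encIn binary n s).map M.inputAlphabet.symm)
        (some ((encList (encPoint e) [ofBool F (hitMat n (side n s))]).map
          M.outputAlphabet.symm)) (p.eval (n + s))) := by
  obtain ⟨p, hp⟩ := exists_poly
  let q := mainP binary ((e.encode 0).map Γ'.bit) ((e.encode 1).map Γ'.bit)
  refine ⟨⟨toTM Γ'.blank q, Equiv.refl _, Equiv.refl _⟩, p,
    fun _ => inferInstanceAs (Finite Γ'), fun n s => ?_⟩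
  have h1 : (n + s + 1) ^ 1 ≤ (n + s + 1) ^ 4 := Nat.pow_le_pow_right (by omega) (by omega)
  rw [pow_one] at h1
  have h2 : side n s ≤ (n + s + 1) ^ 4 + 1 := by
    unfold side
    have : n * (s + 1) ^ 3 ≤ (n + s + 1) * (n + s + 1) ^ 3 :=
      Nat.mul_le_mul (by omega) (Nat.pow_le_pow_left (by omega) 3)
    calc n * (s + 1) ^ 3 + 1 ≤ (n + s + 1) * (n + s + 1) ^ 3 + 1 := by omega
      _ = _ := by ring
  obtain ⟨t, ht, he⟩ := main_spec binary ((e.encode 0).map Γ'.bit) ((e.encode 1).map Γ'.bit)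
    (n := n) (s := s) (B := 2 * (n + s + 1) ^ 4 + 1) (by omega) (by omega) (by omega)
  rw [hp] at ht
  rw [← outW_eq e n (by unfold side; omega)] at he
  have key : ∀ (x x' y y' : List Γ') (T : ℕ), x = x' → y = y' →
      Nonempty (TM2OutputsInTime (toTM Γ'.blank q) x' (some y') T) →
      Nonempty (TM2OutputsInTime (toTM Γ'.blank q) x (some y) T) := by
    intro x x' y y' T hx hy H
    subst hx hy
    exact H
  exact key _ _ _ _ _ (List.map_id _) (List.map_id _) (toTM_outputs Γ'.blank q he ht)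

end Vale.Agent.P314
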