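import Mathlib

namespace Vale.Agent.P314

open Polynomial

/-- the substitution `X ↦ q X` -/
noncomputable def sc {R : Type*} [CommRing R] (q : R) : R[X] →+* R[X] :=
  Polynomial.compRingHom (C q * X)

theorem sc_apply {R : Type*} [CommRing R] (q : R) (p : R[X]) : sc q p = p.comp (C q * X) := rfl

theorem sc_coeff {R : Type*} [CommRing R] (q : R) (p : R[X]) (j : ℕ) :
    (sc q p).coeff j = p.coeff j * q ^ j := by
  rw [sc_apply, comp_C_mul_X_coeff]

theorem sc_eval {R : Type*} [CommRing R] (q : R) (p : R[X]) (x : R) :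
    (sc q p).eval x = p.eval (q * x) := by
  rw [sc_apply, eval_comp]; simp

@[simp] theorem sc_C {R : Type*} [CommRing R] (q a : R) : sc q (C a) = C a := by
  simp [sc_apply]

@[simp] theorem sc_X {R : Type*} [CommRing R] (q : R) : sc q (X : R[X]) = C q * X := by
  simp [sc_apply]

variable {K : Type*} [Field K]

theorem root_eq_zero {q : K} (hq : ∀ i j : ℕ, q ^ i = q ^ j → i = j) {n : ℕ} (hn : 0 < n)
    {b : K[X]} (hb : b ≠ 0) (h1 : b ∣ (1 - X ^ n) * sc q b) (h2 : sc q b ∣ (1 - X ^ n) * b)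
    {β : K} (hβ : b.IsRoot β) : β = 0 := by
  by_contra hβ0
  have hq0 : q ≠ 0 := by
    intro h
    have := hq 1 2 (by simp [h])
    omega
  have fwd : ∃ j : ℕ, (q ^ j * β) ^ n = 1 := by
    by_contra hcon
    push Not at hcon
    have hr : ∀ j : ℕ, b.IsRoot (q ^ j * β) := by
      intro j
      induction j with
      | zero => simpa using hβ
      | succ j ih =>
        have h3 := ih.dvd h1
        simp only [IsRoot.def, eval_mul, eval_sub, eval_one, eval_pow, eval_X, sc_eval,
          mul_eq_zero] at h3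
        rcases h3 with h3 | h3
        · exact absurd (sub_eq_zero.1 h3).symm (hcon j)
        · rw [IsRoot.def, pow_succ', mul_assoc]; exact h3
    apply hb
    apply eq_zero_of_infinite_isRoot
    refine Set.infinite_of_injective_forall_mem (f := fun j : ℕ => q ^ j * β) ?_ hr
    intro i j hij
    exact hq i j (mul_right_cancel₀ hβ0 hij)
  have bwd : ∃ j : ℕ, (q⁻¹ ^ (j + 1) * β) ^ n = 1 := by
    by_contra hcon
    push Not at hcon
    have hr : ∀ j : ℕ, b.IsRoot (q⁻¹ ^ j * β) := by
      intro j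
      induction j with
      | zero => simpa using hβ
      | succ j ih =>
        have h4 : (sc q b).IsRoot (q⁻¹ ^ (j + 1) * β) := by
          rw [IsRoot.def, sc_eval]
          have : q * (q⁻¹ ^ (j + 1) * β) = q⁻¹ ^ j * β := by
            rw [pow_succ']; field_simp
          rw [this]; exact ih
        have h3 := h4.dvd h2
        simp only [IsRoot.def, eval_mul, eval_sub, eval_one, eval_pow, eval_X,
          mul_eq_zero] at h3
        rcases h3 with h3 | h3
        · exact absurd (sub_eq_zero.1 h3).symm (hcon j)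
        · exact h3
    apply hb
    apply eq_zero_of_infinite_isRoot
    refine Set.infinite_of_injective_forall_mem (f := fun j : ℕ => q⁻¹ ^ j * β) ?_ hr
    intro i j hij
    have h5 := mul_right_cancel₀ hβ0 hij
    simp only [inv_pow, inv_inj] at h5
    exact hq i j h5
  obtain ⟨i, hi⟩ := fwd
  obtain ⟨j, hj⟩ := bwd
  have : q ^ ((i + (j + 1)) * n) = q ^ 0 := by
    have h6 : q ^ i * β = q ^ (i + (j + 1)) * (q⁻¹ ^ (j + 1) * β) := by
      rw [pow_add q i, inv_pow]; field_simp
    rw [h6, mul_pow, hj, mul_one, ← pow_mul] at hi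
    simpa using hi
  have := hq _ _ this
  have h7 : 0 < (i + (j + 1)) * n := Nat.mul_pos (by omega) hn
  omega

theorem one_sub_X_pow_degree {n : ℕ} (hn : 0 < n) : degree (1 - X ^ n : K[X]) = n := by
  rw [← degree_neg, neg_sub]
  have : (X ^ n - 1 : K[X]) = X ^ n - C 1 := by simp
  rw [this, degree_X_pow_sub_C hn]

theorem one_sub_X_pow_ne_zero {n : ℕ} (hn : 0 < n) : (1 - X ^ n : K[X]) ≠ 0 := by
  intro h
  have := one_sub_X_pow_degree (K := K) hn
  rw [h] at this
  simp at this

theorem poly_nonsummable [IsAlgClosed K] {q : K} (hq : ∀ i j : ℕ, q ^ i = q ^ j → i = j)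
    {n : ℕ} (hn : 0 < n) {a b : K[X]} (hb : b ≠ 0) (hab : IsCoprime a b) (α : Fin n → K)
    (h : (1 - X ^ n) * (a * sc q b - b * sc q a) =
      (∑ i : Fin n, C (α i) * X ^ (i.1 + 1)) * b * sc q b) :
    (∀ i, α i = 0) ∧ ∃ c : K, a = C c * b := by
  have hq0 : q ≠ 0 := by
    intro h
    have := hq 1 2 (by simp [h])
    omega
  set g : K[X] := ∑ i : Fin n, C (α i) * X ^ (i.1 + 1) with hg
  have h1 : b ∣ (1 - X ^ n) * sc q b := by
    apply hab.symm.dvd_of_dvd_mul_left
    exact ⟨g * sc q b + (1 - X ^ n) * sc q a, by linear_combination h⟩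
  have h2 : sc q b ∣ (1 - X ^ n) * b := by
    apply (hab.map (sc q)).symm.dvd_of_dvd_mul_left
    exact ⟨(1 - X ^ n) * a - g * b, by linear_combination -h⟩
  obtain ⟨b1, hb1, hnd⟩ := exists_eq_pow_rootMultiplicity_mul_and_not_dvd b hb 0
  set e := rootMultiplicity 0 b
  have hdeg : b1.degree = 0 := by
    by_contra hd
    obtain ⟨β, hβ⟩ := IsAlgClosed.exists_root b1 hd
    have hβb : b.IsRoot β := by
      rw [hb1, IsRoot.def, eval_mul, hβ.eq_zero, mul_zero]
    have := root_eq_zero hq hn hb h1 h2 hβb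
    subst this
    exact hnd (dvd_iff_isRoot.2 hβ)
  obtain ⟨c, hc⟩ : ∃ c, b1 = C c := ⟨_, eq_C_of_degree_eq_zero hdeg⟩
  have hc0 : c ≠ 0 := by
    rintro rfl
    apply hb
    rw [hb1, hc]; simp
  have hbe : b = X ^ e * C c := by rw [hb1, hc]; simp
  have hsb : sc q b = C (q ^ e) * b := by
    rw [hbe, map_mul, map_pow, sc_X, sc_C, mul_pow, map_pow]; ring
  have h3 : (1 - X ^ n) * (C (q ^ e) * a - sc q a) = g * (C (q ^ e) * b) := by
    apply mul_left_cancel₀ hb
    rw [hsb] at h
    linear_combination h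
  set g1 : K[X] := ∑ i : Fin n, C (α i) * X ^ i.1 with hg1
  have hgg : g = g1 * X := by
    rw [hg, hg1, Finset.sum_mul]
    refine Finset.sum_congr rfl fun i _ => ?_
    ring
  have hcop : IsCoprime (1 - X ^ n : K[X]) X := by
    refine ⟨1, X ^ (n - 1), ?_⟩
    obtain ⟨m, rfl⟩ : ∃ m, n = m + 1 := ⟨n - 1, by omega⟩
    simp only [Nat.add_sub_cancel]; ring
  have hdvd : (1 - X ^ n : K[X]) ∣ g1 := by
    have h4 : (1 - X ^ n : K[X]) ∣ (g1 * C (q ^ e * c)) * X ^ (e + 1) := by
      refine ⟨C (q ^ e) * a - sc q a, ?_⟩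
      rw [h3, hgg, hbe, map_mul]; ring
    have h5 := (hcop.pow_right (n := e + 1)).dvd_of_dvd_mul_right h4
    have hu : IsUnit (C (q ^ e * c) : K[X]) :=
      isUnit_C.2 (IsUnit.mk0 _ (mul_ne_zero (pow_ne_zero _ hq0) hc0))
    exact (hu.dvd_mul_right).1 h5
  have hg10 : g1 = 0 := by
    apply eq_zero_of_dvd_of_degree_lt hdvd
    rw [one_sub_X_pow_degree hn, hg1]
    exact degree_sum_fin_lt α
  have hα : ∀ i, α i = 0 := by
    intro i
    have := congrArg (fun p => coeff p i.1) hg10
    simp only [hg1, finsetSum_coeff, coeff_C_mul, coeff_X_pow, coeff_zero] at this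
    rw [Finset.sum_eq_single i] at this
    · simpa using this
    · intro j _ hj
      have : ¬ (i.1 = j.1) := fun h => hj (Fin.ext h.symm)
      simp [this]
    · simp
  refine ⟨hα, a.coeff e / c, ?_⟩
  have h6 : C (q ^ e) * a - sc q a = 0 := by
    rw [hgg, hg10, zero_mul, zero_mul] at h3
    exact (mul_eq_zero.1 h3).resolve_left (one_sub_X_pow_ne_zero hn)
  ext j
  have h7 := congrArg (fun p => coeff p j) h6
  simp only [coeff_sub, coeff_C_mul, sc_coeff, coeff_zero] at h7
  rw [hbe, mul_comm (X ^ e), ← mul_assoc, ← map_mul, coeff_C_mul, coeff_X_pow]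
  split_ifs with hj
  · subst hj; field_simp
  · rw [mul_zero]
    by_contra hne
    apply hj
    apply hq
    have : a.coeff j * (q ^ e - q ^ j) = 0 := by linear_combination h7
    exact (sub_eq_zero.1 ((mul_eq_zero.1 this).resolve_left hne)).symm

/-- the automorphism `X ↦ q X` of the field of rational functions -/
noncomputable def scL {q : K} (hq0 : q ≠ 0) : RatFunc K ≃+* RatFunc K :=
  haveI := invertibleOfNonzero hq0
  IsFractionRing.ringEquivOfRingEquiv (A := K[X]) (B := K[X])
    (Polynomial.algEquivCMulXAddC q 0).toRingEquiv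

theorem scL_algebraMap {q : K} (hq0 : q ≠ 0) (p : K[X]) :
    scL hq0 (algebraMap K[X] (RatFunc K) p) = algebraMap K[X] (RatFunc K) (sc q p) := by
  unfold scL
  rw [IsFractionRing.ringEquivOfRingEquiv_algebraMap]
  congr 1
  simp [sc_apply, Polynomial.algEquivCMulXAddC, ← comp_eq_aeval]

theorem rat_nonsummable [IsAlgClosed K] {q : K} (hq : ∀ i j : ℕ, q ^ i = q ^ j → i = j)
    (hq0 : q ≠ 0) {n : ℕ} (hn : 0 < n) (φ : RatFunc K) (α : Fin n → K)
    (h : algebraMap K[X] (RatFunc K) (1 - X ^ n) * (φ - scL hq0 φ) =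
      ∑ i : Fin n, algebraMap K[X] (RatFunc K) (C (α i) * X ^ (i.1 + 1))) :
    (∀ i, α i = 0) ∧ ∃ c : K, φ = algebraMap K[X] (RatFunc K) (C c) := by
  have hb : φ.denom ≠ 0 := φ.denom_ne_zero
  have hinj : Function.Injective (algebraMap K[X] (RatFunc K)) := IsFractionRing.injective _ _
  have hb' : algebraMap K[X] (RatFunc K) φ.denom ≠ 0 := by
    rwa [Ne, map_eq_zero_iff _ hinj]
  have hφ : φ * algebraMap K[X] (RatFunc K) φ.denom = algebraMap K[X] (RatFunc K) φ.num := by
    exact ((div_eq_iff hb').1 φ.num_div_denom).symm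
  have hφ2 := congrArg (scL hq0) hφ
  rw [map_mul, scL_algebraMap, scL_algebraMap] at hφ2
  obtain ⟨hα, c, hc⟩ := poly_nonsummable hq hn hb φ.isCoprime_num_denom α (by
    apply hinj
    simp only [map_mul, map_sub, map_sum] at h ⊢
    rw [← h, ← hφ, ← hφ2]
    ring)
  refine ⟨hα, c, ?_⟩
  apply mul_right_cancel₀ hb'
  rw [hφ, hc, map_mul]

end Vale.Agent.P314
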